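import Vale.Agent.P273.H681.Loc
import Vale.Agent.P273.H973.Omega
import Vale.Agent.P273.H811.Fib

/-!
P273, the walls W2 / W3 between geometry (FAM), gauge (POT, CUT, OMEGA) and analysis (BULK, NEG, LIM).
Marks: `L = Fin 7 × Bool` (`true` = A); two marks are of the same type if their second components
agree.
* `Ext`: what the geometry delivers for one natural closed form `F` of degree 16.
* `Gauge`: what the gauge delivers, the closed 1-forms `θ_j^ξ` (`j` a mark, `ξ` a class).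
* `PhiF`: the 2-form on configurations of roots (fibre integral of `G ∧ T(θ,..,θ)`).
-/

noncomputable section

namespace Vale.Agent.P273.H95

open Set Filter MeasureTheory H681 H973
open scoped Topology ContDiff

/-- The marks. -/
abbrev L := Fin 7 × Bool
/-- Coefficients (or roots) and fibre coordinates of the marks. -/
abbrev E := C6 × (L → ℂ)
/-- Real alternating forms. -/
abbrev Alt (k : ℕ) (M : Type) [NormedAddCommGroup M] [NormedSpace ℝ M] := M [⋀^Fin k]→L[ℝ] ℝ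
/-- Values of the potentials, basis `e1, f1, e2, f2` of 480 / 213. -/
abbrev H4 := Fin 4 → ℝ

/-- The sextic with coefficients `a` (same as 183's `sx`). -/
def sx (a : C6) (x : ℂ) : ℂ := x ^ 6 + ∑ i : Fin 6, a i * x ^ (i : ℕ)
def sx1 (a : C6) (x : ℂ) : ℂ := 6 * x ^ 5 + ∑ i : Fin 6, (i : ℕ) * a i * x ^ ((i : ℕ) - 1)
def sx2 (a : C6) (x : ℂ) : ℂ :=
  30 * x ^ 4 + ∑ i : Fin 6, (i : ℕ) * ((i : ℕ) - 1 : ℂ) * a i * x ^ ((i : ℕ) - 2)
/-- The reversed sextic. -/
def sw (a : C6) (w : ℂ) : ℂ := 1 + ∑ i : Fin 6, a i * w ^ (6 - (i : ℕ))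
/-- No triple roots. -/
def K6 : Set C6 := {a | ∀ x, ¬ (sx a x = 0 ∧ sx1 a x = 0 ∧ sx2 a x = 0)}

/-- The polynomial in the chart `s` (`s = true`: the chart `w = 1/x`, `v = y/x^3` at infinity). -/
def pol (s : Bool) (a : C6) (z : ℂ) : ℂ := if s then sw a z else sx a z

/-- The points `(z,v)` in the chart `s` and `(z',v')` in the chart `s'` of the curve are equal. -/
def Same (s : Bool) (z v : ℂ) (s' : Bool) (z' v' : ℂ) : Prop :=
  if s = s' then z = z' ∧ v = v' else z * z' = 1 ∧ v' = v * z' ^ 3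

/-- Points of the curve, none of them with `y = 0`. -/
def OnC (S : L → Bool) (a : C6) (z v : L → ℂ) : Prop :=
  ∀ j, v j ^ 2 = pol (S j) a (z j) ∧ v j ≠ 0

/-- Same type marks distinct (so there are only disjoint A-B collisions). -/
def Sep (S : L → Bool) (z v : L → ℂ) : Prop :=
  ∀ i j : L, i ≠ j → i.2 = j.2 → ¬ Same (S i) (z i) (v i) (S j) (z j) (v j)

/-- `G` (a form in the coordinates `(a,z)`, depending on the sheets `v`, over the curve with
coefficients `c a`) is, near `(e,v)`, given by one smooth function `g`, and `P g` holds near `e`. -/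
def Near {M : Type} [NormedAddCommGroup M] [NormedSpace ℝ M] (c : C6 → C6) (S : L → Bool)
    (G : E → (L → ℂ) → M) (P : (E → M) → E → Prop) (e : E) (v : L → ℂ) : Prop :=
  ∃ (W : Set E) (g : E → M) (r : ℝ), IsOpen W ∧ e ∈ W ∧ 0 < r ∧
    ContDiffOn ℝ ∞ g W ∧ (∀ p ∈ W, P g p) ∧
    ∀ p ∈ W, ∀ v' : L → ℂ, (∀ j, v' j ^ 2 = pol (S j) (c p.1) (p.2 j)) →
      (∀ j, ‖v' j - v j‖ < r) → G p v' = g p

/-- Change of charts for the marks where `S` and `S'` differ. -/
def flip (S S' : L → Bool) (p : E) : E := (p.1, fun j => if S j = S' j then p.2 j else (p.2 j)⁻¹)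
def flipv (S S' : L → Bool) (z v : L → ℂ) (j : L) : ℂ :=
  if S j = S' j then v j else v j * ((z j)⁻¹) ^ 3

/-! ### The regions at the theta point -/

/-- The centres of the three pairs of roots: `3/2, 7/2, 11/2`. -/
def ctr (k : Fin 3) : ℂ := 2 * (k : ℕ) + 3 / 2
/-- Principal square root. -/
def csq (z : ℂ) : ℂ := z ^ (1 / 2 : ℂ)
/-- The coefficients of `∏ ((x - e_k)^2 - ε_k)`. -/
def thA (ε : Fin 3 → ℂ) : C6 := fun i =>
  (∏ k, ((Polynomial.X - Polynomial.C (ctr k)) ^ 2 - Polynomial.C (ε k))).coeff i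
/-- `G_k`, with `y = G_k(x) (X - Y)/2`. -/
def gk (ε : Fin 3 → ℂ) (k : Fin 3) (x : ℂ) : ℂ :=
  ∏ l : Fin 3, if l = k then 1 else (x - ctr l) * csq (1 - ε l / (x - ctr l) ^ 2)
/-- `y` on the core P (minus this on the core P'). -/
def gc (ε : Fin 3 → ℂ) (x : ℂ) : ℂ := ∏ l : Fin 3, (x - ctr l) * csq (1 - ε l / (x - ctr l) ^ 2)
/-- The same at infinity. -/
def gcw (ε : Fin 3 → ℂ) (w : ℂ) : ℂ :=
  ∏ l : Fin 3, (1 - ctr l * w) * csq (1 - ε l * w ^ 2 / (1 - ctr l * w) ^ 2)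

/-- A region (93's `Reg`): `pl x = inl k`: the mark is in the neck `k`, `inr false`: on the core P
(`y = + g(x)`, `|X|` large), `inr true`: on the core P'; `rk x` = number of marks of the same neck
with larger `|X|` (nearer to P). -/
structure Region where
  pl : L → Fin 3 ⊕ Bool
  rk : L → ℕ
  rk_core : ∀ x s, pl x = Sum.inr s → rk x = 0
  rk_inj : ∀ x y k, pl x = Sum.inl k → pl y = Sum.inl k → rk x = rk y → x = y
  rk_lt : ∀ x k, pl x = Sum.inl k → rk x < (Finset.univ.filter fun y => pl y = Sum.inl k).card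

namespace Region
variable (R : Region)

/-- Number of marks in the neck `k`. -/
def n (k : Fin 3) : ℕ := (Finset.univ.filter fun y => R.pl y = Sum.inl k).card
/-- Gaps: neck `k` with `n` marks has the gaps `0..n` (gap `0` next to P). -/
abbrev Gap := Σ k : Fin 3, Fin (R.n k + 1)
/-- Marks on the cores. -/
abbrev Cm := {j : L // (R.pl j).isRight = true}
/-- The coordinates of the region: 17 complex numbers. -/
abbrev Sp := (R.Gap → ℂ) × (R.Cm → ℂ)

/-- `ε_k` = product of the gaps. -/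
def eps (p : R.Sp) (k : Fin 3) : ℂ := ∏ g : Fin (R.n k + 1), p.1 ⟨k, g⟩
/-- `X`-coordinate of the mark of rank `i` (product of the gaps before it). -/
def XX (p : R.Sp) (k : Fin 3) (i : ℕ) : ℂ :=
  ∏ g : Fin (R.n k + 1), if (g : ℕ) ≤ i then p.1 ⟨k, g⟩ else 1
/-- `Y`-coordinate (product of the gaps after the mark). -/
def YY (p : R.Sp) (k : Fin 3) (i : ℕ) : ℂ :=
  ∏ g : Fin (R.n k + 1), if i < (g : ℕ) then p.1 ⟨k, g⟩ else 1

/-- The coordinate (`x`, or `w = 1/x` if `S j`) of the mark `j`. -/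
def pos (p : R.Sp) (j : L) : ℂ :=
  match h : R.pl j with
  | Sum.inl k => ctr k + (R.XX p k (R.rk j) + R.YY p k (R.rk j)) / 2
  | Sum.inr _ => p.2 ⟨j, by simp [h]⟩

/-- The coordinate `y` (or `v = y/x^3` if `S j`) of the mark `j`. -/
def sht (S : L → Bool) (p : R.Sp) (j : L) : ℂ :=
  match R.pl j with
  | Sum.inl k => gk (R.eps p) k (R.pos p j) * (R.XX p k (R.rk j) - R.YY p k (R.rk j)) / 2
  | Sum.inr s => (if s then -1 else 1) *
      (if S j then gcw (R.eps p) (R.pos p j) else gc (R.eps p) (R.pos p j))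

/-- The map of the region to coefficients and marks. -/
def psi (p : R.Sp) : E := (thA (R.eps p), R.pos p)

/-- The open set on which the family of the region lives (it contains the closed region
`|gaps| ≤ 1`, `|X|, |Y| ≤ 1/16`, core marks with `|x - e_k| ≥ 1/32`, with same type marks
distinct). -/
def dom (S : L → Bool) : Set R.Sp := {p |
  (∀ k, ‖R.eps p k‖ < 1 / 4096) ∧
  (∀ j k, R.pl j = Sum.inl k → ‖R.XX p k (R.rk j)‖ < 1 / 8 ∧ ‖R.YY p k (R.rk j)‖ < 1 / 8) ∧
  (∀ (j : L) (s : Bool), R.pl j = Sum.inr s → ∀ l,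
    if S j then ‖R.eps p l * R.pos p j ^ 2‖ < ‖1 - ctr l * R.pos p j‖ ^ 2 / 4
    else ‖R.eps p l‖ < ‖R.pos p j - ctr l‖ ^ 2 / 4) ∧
  (∀ i j : L, i ≠ j → i.2 = j.2 → (∀ k, ¬ (R.pl i = Sum.inl k ∧ R.pl j = Sum.inl k)) →
    ¬ Same (S i) (R.pos p i) (R.sht S p i) (S j) (R.pos p j) (R.sht S p j)) ∧
  ∀ (i j : L) (k : Fin 3), R.pl i = Sum.inl k → R.pl j = Sum.inl k → i.2 = j.2 →
    R.rk i < R.rk j →
    ∏ g : Fin (R.n k + 1), (if R.rk i < (g : ℕ) ∧ (g : ℕ) ≤ R.rk j then p.1 ⟨k, g⟩ else 1) ≠ 1}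

/-- All necks with marks are open (no gap is zero) and no mark is at a root. -/
def isStd (S : L → Bool) (p : R.Sp) : Prop :=
  (∀ k, R.n k ≠ 0 → ∀ g, p.1 ⟨k, g⟩ ≠ 0) ∧ ∀ j, R.sht S p j ≠ 0

end Region

/-! ### The regions at one node (for NEG), all other roots free -/

/-- A region with one neck: `nk j`: the mark `j` is in the neck. -/
structure Region1 where
  nk : L → Bool
  rk : L → ℕ
  rk_core : ∀ x, nk x = false → rk x = 0
  rk_inj : ∀ x y, nk x = true → nk y = true → rk x = rk y → x = y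
  rk_lt : ∀ x, nk x = true → rk x < (Finset.univ.filter fun y => nk y = true).card

namespace Region1
variable (R : Region1)

/-- Number of marks in the neck. -/
def n : ℕ := (Finset.univ.filter fun y => R.nk y = true).card
/-- Marks on the core. -/
abbrev Cm := {j : L // R.nk j = false}
/-- Gaps, core marks, and five base coordinates: `0` the centre `e`, `1..4` the other roots. -/
abbrev Sp := (Fin (R.n + 1) → ℂ) × (R.Cm ⊕ Fin 5 → ℂ)

def ctr (p : R.Sp) : ℂ := p.2 (Sum.inr 0)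
def oth (p : R.Sp) (l : Fin 4) : ℂ := p.2 (Sum.inr l.succ)
def eps (p : R.Sp) : ℂ := ∏ g, p.1 g
def XX (p : R.Sp) (i : ℕ) : ℂ := ∏ g : Fin (R.n + 1), if (g : ℕ) ≤ i then p.1 g else 1
def YY (p : R.Sp) (i : ℕ) : ℂ := ∏ g : Fin (R.n + 1), if i < (g : ℕ) then p.1 g else 1

def pos (p : R.Sp) (j : L) : ℂ :=
  if h : R.nk j = false then p.2 (Sum.inl ⟨j, h⟩) else
    R.ctr p + (R.XX p (R.rk j) + R.YY p (R.rk j)) / 2

/-- Coefficients of `((x-e)^2-ε) ∏ (x - r_l)`. -/
def cf (p : R.Sp) : C6 := fun i =>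
  (((Polynomial.X - Polynomial.C (R.ctr p)) ^ 2 - Polynomial.C (R.eps p)) *
    ∏ l : Fin 4, (Polynomial.X - Polynomial.C (R.oth p l))).coeff i

/-- The sheets: `g` is the value at `e` of the root of the other four factors, `v` the sheets of the
core marks. -/
def sht (p : R.Sp) (g : ℂ) (v : L → ℂ) (j : L) : ℂ :=
  if R.nk j then g * (∏ l : Fin 4, csq ((R.pos p j - R.oth p l) / (R.ctr p - R.oth p l))) *
    (R.XX p (R.rk j) - R.YY p (R.rk j)) / 2 else v j

def psi (p : R.Sp) : E := (R.cf p, R.pos p)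

/-- `g`, `v` are sheets. -/
def isSheet (S : L → Bool) (p : R.Sp) (g : ℂ) (v : L → ℂ) : Prop :=
  g ^ 2 = ∏ l : Fin 4, (R.ctr p - R.oth p l) ∧
    ∀ j, R.nk j = false → v j ^ 2 = pol (S j) (R.cf p) (R.pos p j)

/-- Admissible points of the region. -/
def ok (S : L → Bool) (p : R.Sp) (g : ℂ) (v : L → ℂ) : Prop :=
  (∀ l, R.ctr p ≠ R.oth p l ∧ ‖R.eps p‖ < ‖R.ctr p - R.oth p l‖ ^ 2 / 4096) ∧
  (∀ l l', R.oth p l = R.oth p l' → l = l') ∧ R.isSheet S p g v ∧
  (∀ j, R.nk j = false → v j ≠ 0 ∧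
    if S j then ‖R.eps p * R.pos p j ^ 2‖ < ‖1 - R.ctr p * R.pos p j‖ ^ 2 / 4
    else ‖R.eps p‖ < ‖R.pos p j - R.ctr p‖ ^ 2 / 4) ∧
  (∀ j, R.nk j = true → ∀ l, ‖R.XX p (R.rk j)‖ < ‖R.ctr p - R.oth p l‖ / 8 ∧
    ‖R.YY p (R.rk j)‖ < ‖R.ctr p - R.oth p l‖ / 8) ∧
  (∀ i j : L, i ≠ j → i.2 = j.2 → ¬ (R.nk i = true ∧ R.nk j = true) →
    ¬ Same (S i) (R.pos p i) (R.sht p g v i) (S j) (R.pos p j) (R.sht p g v j)) ∧
  ∀ i j : L, R.nk i = true → R.nk j = true → i.2 = j.2 → R.rk i < R.rk j →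
    ∏ g : Fin (R.n + 1), (if R.rk i < (g : ℕ) ∧ (g : ℕ) ≤ R.rk j then p.1 g else 1) ≠ 1

/-- The neck is open if it has marks, and no mark is at a root. -/
def isStd (p : R.Sp) (g : ℂ) (v : L → ℂ) : Prop :=
  (R.n ≠ 0 → ∀ g, p.1 g ≠ 0) ∧ ∀ j, R.sht p g v j ≠ 0

end Region1

/-- **WALL W3.** What the geometry delivers for a natural closed 16-form `F`: `G S (a,z) v` is the
value of `F` on the family of curves `y^2 = f_a(x)` with marks `(z_j,v_j)` (in the chart `S j`) in the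
coordinates `(a,z)`; `H R S` is the value of `F` on the family of the region `R` (marks with `S j` are
core marks in the chart at infinity). -/
structure Ext where
  G : (L → Bool) → E → (L → ℂ) → Alt 16 E
  /-- smooth and closed, also at infinity and at A-B collisions, and for double roots of `f_a` -/
  reg : ∀ S e v, e.1 ∈ K6 → OnC S e.1 e.2 v → Sep S e.2 v →
    Near id S (G S) (fun g p => extDeriv g p = 0) e v
  /-- change of charts -/
  chg : ∀ S S' e v, e.1 ∈ K6 → OnC S e.1 e.2 v → Sep S e.2 v → (∀ j, S j ≠ S' j → e.2 j ≠ 0) →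
    G S e v = (G S' (flip S S' e) (flipv S S' e.2 v)).compContinuousLinearMap
      (fderiv ℝ (flip S S') e)
  H : (R : Region) → (L → Bool) → R.Sp → Alt 16 R.Sp
  /-- smooth and closed on the whole domain (all gaps may be zero) -/
  hreg : ∀ (R : Region) (S : L → Bool), (∀ j, S j = true → (R.pl j).isRight = true) →
    ContDiffOn ℝ ∞ (H R S) (R.dom S) ∧ ∀ p ∈ R.dom S, extDeriv (H R S) p = 0
  /-- it extends the interior form -/
  hext : ∀ (R : Region) (S : L → Bool), (∀ j, S j = true → (R.pl j).isRight = true) →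
    ∀ p ∈ R.dom S, R.isStd S p →
    H R S p = (G S (R.psi p) (R.sht S p)).compContinuousLinearMap (fderiv ℝ R.psi p)
  /-- the regions with one neck -/
  H1 : (R : Region1) → (L → Bool) → R.Sp → ℂ → (L → ℂ) → Alt 16 R.Sp
  hreg1 : ∀ (R : Region1) (S : L → Bool), (∀ j, S j = true → R.nk j = false) → ∀ p g v,
    R.ok S p g v → ∃ (W : Set R.Sp) (h : R.Sp → Alt 16 R.Sp) (r : ℝ), IsOpen W ∧ p ∈ W ∧ 0 < r ∧
      ContDiffOn ℝ ∞ h W ∧ (∀ q ∈ W, extDeriv h q = 0) ∧
      ∀ q ∈ W, ∀ g' v', R.isSheet S q g' v' → ‖g' - g‖ < r →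
        (∀ j, R.nk j = false → ‖v' j - v j‖ < r) → H1 R S q g' v' = h q
  hext1 : ∀ (R : Region1) (S : L → Bool), (∀ j, S j = true → R.nk j = false) → ∀ p g v,
    R.ok S p g v → R.isStd p g v →
    H1 R S p g v = (G S (R.psi p) (R.sht p g v)).compContinuousLinearMap (fderiv ℝ R.psi p)

/-! ### The gauge -/

/-- Coefficients of the polynomial with roots `b`. -/
def rts (b : C6) : C6 := fun i => (∏ k : Fin 6, (Polynomial.X - Polynomial.C (b k))).coeff i

/-- The action of the half twist on the six numbers (356 (M2)). -/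
def act (i : Fin 5) (ξ : Fin 6 → ℝ) (k : Fin 6) : ℝ :=
  if k = i.castSucc then 2 * ξ i.castSucc - ξ i.succ else if k = i.succ then ξ i.castSucc else ξ k

/-- Classes: alternating sum zero. -/
def IsCl (ξ : Fin 6 → ℝ) : Prop := ∑ k : Fin 6, (-1 : ℝ) ^ (k : ℕ) * ξ k = 0

/-- **WALL W2, gauge.** For each mark `j` and each class `ξ` (six numbers in the frame of `XX`) a
closed 1-form `θ_j^ξ` on the space of (roots, marks), after the cut-offs at the roots and at infinity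
and after the recursion. -/
structure Gauge where
  θ : L → (Fin 6 → ℝ) → (L → Bool) → E → (L → ℂ) → (E →L[ℝ] ℝ)
  /-- linear in the class, zero for constants -/
  add : ∀ j ξ ζ S e v, IsCl ξ → IsCl ζ → θ j (ξ + ζ) S e v = θ j ξ S e v + θ j ζ S e v
  smul : ∀ j (c : ℝ) ξ S e v, IsCl ξ → θ j (c • ξ) S e v = c • θ j ξ S e v
  const : ∀ j S e v, θ j (fun _ => 1) S e v = 0
  /-- smooth and closed everywhere except at the roots -/
  reg : ∀ j ξ S e v, IsCl ξ → e.1 ∈ XX → OnC S (rts e.1) e.2 v →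
    Near rts S (θ j ξ S) (fun g p => ∀ u w, fderiv ℝ g p u w = fderiv ℝ g p w u) e v
  /-- it vanishes near the roots, uniformly in the other marks -/
  root : ∀ b ∈ XX, ∀ k : Fin 6, ∃ r > 0, ∀ j ξ S (e : E) (v : L → ℂ), IsCl ξ → ‖e.1 - b‖ < r →
    (if S j then ‖e.2 j * b k - 1‖ < r else ‖e.2 j - b k‖ < r) →
    (∀ i, v i ^ 2 = pol (S i) (rts e.1) (e.2 i)) → θ j ξ S e v = 0
  /-- same type marks that coincide have the same form, nearby -/
  col : ∀ i j : L, i ≠ j → i.2 = j.2 → ∀ S (e : E) (v : L → ℂ), e.1 ∈ XX →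
    OnC S (rts e.1) e.2 v → Same (S i) (e.2 i) (v i) (S j) (e.2 j) (v j) →
    ∃ r > 0, ∀ (e' : E) (v' : L → ℂ), ‖e' - e‖ < r → (∀ l, ‖v' l - v l‖ < r) →
      (∀ l, v' l ^ 2 = pol (S l) (rts e'.1) (e'.2 l)) →
      ∀ ξ, IsCl ξ → θ i ξ S e' v' = θ j ξ S e' v'
  /-- change of charts -/
  chg : ∀ j ξ S S' e v, IsCl ξ → e.1 ∈ XX → OnC S (rts e.1) e.2 v →
    (∀ j, S j ≠ S' j → e.2 j ≠ 0) →
    θ j ξ S e v = (θ j ξ S' (flip S S' e) (flipv S S' e.2 v)).comp (fderiv ℝ (flip S S') e)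
  /-- half twist: relabelling after the root `i` has passed above the root `i+1` -/
  law : ∀ j ξ S (e : E) (v : L → ℂ) (i : Fin 5), IsCl ξ → e.1 ∈ XX →
    (e.1 i.succ).re < (e.1 i.castSucc).re → OnC S (rts e.1) e.2 v →
    θ j ξ S e v = (θ j (act i ξ) S (swL i e.1, e.2) v).comp
      ((swL i).prodMap (ContinuousLinearMap.id ℝ (L → ℂ)))

/-- The four classes `c_e1, c_f1, c_e2, c_f2` of 213. -/
def col4 : Fin 4 → Fin 6 → ℝ :=
  ![![0, -1, -1, 0, 0, 0], ![1, 1, 0, 0, 0, 0], ![0, 0, 0, 1, 1, 0], ![0, 0, 0, 0, 1, 1]]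

/-- The marks in their order: first the seven A, then the seven B. -/
def mrk (i : Fin 14) : L :=
  if h : (i : ℕ) < 7 then (⟨i, h⟩, true) else (⟨i - 7, by omega⟩, false)

/-- The `H4`-valued 1-form of the `i`-th mark. -/
def Gauge.th (Θ : Gauge) (i : Fin 14) (S : L → Bool) (e : E) (v : L → ℂ) : E →L[ℝ] H4 :=
  ContinuousLinearMap.pi fun a => Θ.θ (mrk i) (col4 a) S e v

/-! ### The definition of `Φ` -/

/-- The interior form in the coordinates (roots, marks). -/
def GR (G : (L → Bool) → E → (L → ℂ) → Alt 16 E) (S : L → Bool) (e : E) (v : L → ℂ) : Alt 16 E :=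
  (G S (rts e.1, e.2) v).compContinuousLinearMap
    ((fderiv ℝ rts e.1).prodMap (ContinuousLinearMap.id ℝ (L → ℂ)))

/-- The sheets. -/
def sheet (S : L → Bool) (e : E) (s : L → Bool) (j : L) : ℂ :=
  (if s j then 1 else -1) * csq (pol (S j) (rts e.1) (e.2 j))

/-- Multilinear forms in 14 variables of `H4` (the coefficients `v ∈ V_{7,7}` are such forms). -/
abbrev MT := ContinuousMultilinearMap ℝ (fun _ : Fin 14 => H4) ℝ

/-- `∑ over the sheets of G ∧ T(θ_1,..,θ_14)`, a form of degree 30. -/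
def Wf (X : Ext) (Θ : Gauge) (T : MT) (S : L → Bool) (e : E) : Alt (16 + 14) E :=
  ∑ s : L → Bool, wedgeT (GR X.G S e (sheet S e s)) T fun i => Θ.th i S e (sheet S e s)

/-- The standard real basis of the fibre, mark by mark. -/
def vb (i : Fin 28) : L → ℂ :=
  Pi.single (mrk ⟨i / 2, by omega⟩) (if (i : ℕ) % 2 = 0 then 1 else Complex.I)

/-- **The 2-form `Φ`** on configurations of roots. -/
def PhiF (X : Ext) (Θ : Gauge) (T : MT) (b : C6) : Alt 2 C6 :=
  H811.fib (n := 28) (k := 2) volume vb (Wf X Θ T fun _ => false) b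

/-! ### BULK -/

/-- The matrices of the half twists on `H4` (480): `s_k x = x + ω(d_k,x) d_k`. -/
def dk : Fin 5 → H4 := ![![1, 0, 0, 0], ![0, 1, 0, 0], ![1, 0, 1, 0], ![0, 0, 0, 1], ![0, 0, 1, 0]]
def om (x y : H4) : ℝ := x 0 * y 1 - x 1 * y 0 + x 2 * y 3 - x 3 * y 2
def sH (k : Fin 5) : H4 →L[ℝ] H4 :=
  LinearMap.toContinuousLinearMap
    { toFun := fun x => x + om (dk k) x • dk k
      map_add' := fun x y => by
        have : om (dk k) (x + y) = om (dk k) x + om (dk k) y := by simp [om]; ring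
        rw [this, add_smul]; abel
      map_smul' := fun c x => by
        have : om (dk k) (c • x) = c * om (dk k) x := by simp [om]; ring
        rw [this, mul_smul, smul_add]; simp }

/-- `T` is symmetric in the A-slots and in the B-slots. -/
def SymT (T : MT) : Prop := ∀ a b : Fin 14, (mrk a).2 = (mrk b).2 → SymAt T a b

/-- **BULK, part 1.** -/
def BulkSmooth : Prop := ∀ (X : Ext) (Θ : Gauge) (T : MT), SymT T →
  ContDiffOn ℝ 1 (PhiF X Θ T) H681.XX ∧ ∀ b ∈ H681.XX, extDeriv (PhiF X Θ T) b = 0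

/-- **BULK, part 2.** -/
def BulkLinear : Prop := ∀ (X : Ext) (Θ : Gauge) (T T' : MT), SymT T → SymT T' → ∀ c : ℝ,
  ∀ b ∈ H681.XX, PhiF X Θ (T + c • T') b = PhiF X Θ T b + c • PhiF X Θ T' b

/-- **BULK, part 3.** -/
def BulkLaw : Prop := ∀ (X : Ext) (Θ : Gauge) (T : MT), SymT T → ∀ k : Fin 5, ∀ b ∈ H681.XX,
  (b k.succ).re < (b k.castSucc).re →
  PhiF X Θ T b = (PhiF X Θ (T.compContinuousLinearMap fun _ => sH k)
    (swL k b)).compContinuousLinearMap (swL k)

end Vale.Agent.P273.H95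

end
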