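import Vale.Agent.P273.H95.OneDen

/-!
P273, the fields `H1`, `hreg1`, `hext1` of `Ext` from local existence.
-/

noncomputable section

namespace Vale.Agent.P273.H95

open Set Filter H681
open scoped Topology ContDiff

/-- The fourteen points are distinct points of the curve, none at a root. -/
def DistE (S : L → Bool) (e : E) (v : L → ℂ) : Prop :=
  OnC S e.1 e.2 v ∧ ∀ i j : L, i ≠ j → ¬ Same (S i) (e.2 i) (v i) (S j) (e.2 j) (v j)

/-- **What the one-node instance delivers** (`FS S e v` = value of `F` on the standard family, only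
used at distinct points): near every admissible point, one smooth closed form that agrees with the
pull-back of `FS` at the generic points. -/
def RegLoc1 (FS : (L → Bool) → E → (L → ℂ) → Alt 16 E) : Prop :=
  ∀ (R : Region1) (S : L → Bool), (∀ j, S j = true → R.nk j = false) →
    ∀ p₀ g₀ v₀, R.ok S p₀ g₀ v₀ →
      ∃ (W : Set R.Sp) (h : R.Sp → Alt 16 R.Sp) (r : ℝ), IsOpen W ∧ p₀ ∈ W ∧ 0 < r ∧
        ContDiffOn ℝ ∞ h W ∧ (∀ p ∈ W, extDeriv h p = 0) ∧
        ∀ p ∈ W, ∀ g v, R.ok S p g v → ‖g - g₀‖ < r →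
          (∀ j, R.nk j = false → ‖v j - v₀ j‖ < r) → R.isStd p g v → R.Dst S p g v →
          h p = (FS S (R.psi p) (R.sht p g v)).compContinuousLinearMap (fderiv ℝ R.psi p)

/-- The facts on positions (883). -/
structure Pos1 : Prop where
  k6 : ∀ (R : Region1) (S : L → Bool) p g v, R.ok S p g v → R.cf p ∈ K6
  sq : ∀ (R : Region1) (S : L → Bool), (∀ j, S j = true → R.nk j = false) → ∀ p g v,
    R.ok S p g v → ∀ j, R.sht p g v j ^ 2 = pol (S j) (R.cf p) (R.pos p j)

namespace Region1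

variable (R : Region1)

theorem an_psi (p : R.Sp) : AnalyticAt ℂ R.psi p :=
  (R.an_cf p).prod (AnalyticAt.pi fun j => R.an_pos j p)

theorem contDiffAt_psi (p : R.Sp) : ContDiffAt ℝ ∞ R.psi p :=
  ((R.an_psi p).contDiffAt (n := ∞)).restrict_scalars ℝ

/-- `Sep` at the admissible points of an open neck. -/
theorem sep_of_ok {S : L → Bool} (hS : ∀ j, S j = true → R.nk j = false) {p : R.Sp} {g : ℂ}
    {v : L → ℂ} (ho : R.ok S p g v) (hs : R.isStd p g v) : Sep S (R.pos p) (R.sht p g v) := by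
  intro i j hij ht hsame
  by_cases hc : R.nk i = true ∧ R.nk j = true
  · obtain ⟨hi, hj⟩ := hc
    have hn : R.n ≠ 0 := by
      have := R.rk_lt i hi
      unfold n
      omega
    have hgap := hs.1 hn
    have hg : g ≠ 0 := by
      intro e
      have h1 := ho.2.2.1.1
      rw [e] at h1
      have h2 : (∏ l : Fin 4, (R.ctr p - R.oth p l)) ≠ 0 :=
        Finset.prod_ne_zero_iff.2 fun l _ => sub_ne_zero.2 (ho.1 l).1
      exact h2 (by rw [← h1]; simp)
    have hP : (∏ l : Fin 4, csq ((R.pos p j - R.oth p l) / (R.ctr p - R.oth p l))) ≠ 0 :=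
      Finset.prod_ne_zero_iff.2 fun l _ =>
        csq_ne' (Complex.slitPlane_ne_zero (R.ratio_slit ho hj l))
    have hSi : S i = false := by
      by_contra h
      have := hS i (by simpa using h)
      rw [hi] at this
      cases this
    have hSj : S j = false := by
      by_contra h
      have := hS j (by simpa using h)
      rw [hj] at this
      cases this
    unfold Same at hsame
    rw [if_pos (by rw [hSi, hSj])] at hsame
    obtain ⟨e1, e2⟩ := hsame
    rw [R.sht_neck hi, R.sht_neck hj, e1] at e2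
    have e3 : R.XX p (R.rk i) - R.YY p (R.rk i) = R.XX p (R.rk j) - R.YY p (R.rk j) := by
      refine mul_left_cancel₀ (mul_ne_zero hg hP) ?_
      linear_combination 2 * e2
    rw [R.pos_neck hi, R.pos_neck hj] at e1
    have e4 : R.XX p (R.rk i) = R.XX p (R.rk j) := by linear_combination e1 + e3 / 2
    -- the quotient of the two X-coordinates
    have key : ∀ a b : ℕ, a < b → R.XX p b = R.XX p a * ∏ g : Fin (R.n + 1),
        (if a < (g : ℕ) ∧ (g : ℕ) ≤ b then p.1 g else 1) := by
      intro a b hab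
      unfold XX
      rw [← Finset.prod_mul_distrib]
      refine Finset.prod_congr rfl fun g _ => ?_
      by_cases h1 : (g : ℕ) ≤ a
      · rw [if_pos h1, if_pos (by omega), if_neg (by omega), mul_one]
      · by_cases h2 : (g : ℕ) ≤ b
        · rw [if_neg h1, if_pos h2, if_pos (by omega), one_mul]
        · rw [if_neg h1, if_neg h2, if_neg (by omega), one_mul]
    have hX : ∀ a, R.XX p a ≠ 0 := by
      intro a
      unfold XX
      refine Finset.prod_ne_zero_iff.2 fun g _ => ?_
      split_ifs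
      · exact hgap g
      · exact one_ne_zero
    rcases lt_trichotomy (R.rk i) (R.rk j) with h | h | h
    · have h1 := ho.2.2.2.2.2.2 i j hi hj ht h
      rw [key _ _ h] at e4
      exact h1 (mul_left_cancel₀ (hX (R.rk i)) (by rw [mul_one]; exact e4.symm))
    · exact hij (R.rk_inj i j hi hj h)
    · have h1 := ho.2.2.2.2.2.2 j i hj hi ht.symm h
      rw [key _ _ h] at e4
      exact h1 (mul_left_cancel₀ (hX (R.rk j)) (by rw [mul_one]; exact e4))
  · exact ho.2.2.2.2.2.1 i j hij ht hc hsame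

end Region1

theorem continuousAt_compCLM {A A' : Type*} [NormedAddCommGroup A] [NormedSpace ℝ A]
    [NormedAddCommGroup A'] [NormedSpace ℝ A'] {k : ℕ} {X : Type*} [TopologicalSpace X]
    {F : X → A' [⋀^Fin k]→L[ℝ] ℝ} {l : X → (A →L[ℝ] A')} {x : X}
    (hF : ContinuousAt F x) (hl : ContinuousAt l x) :
    ContinuousAt (fun x => (F x).compContinuousLinearMap (l x)) x := by
  have h3 := (ContinuousAlternatingMap.hasStrictFDerivAt_compContinuousLinearMap (𝕜 := ℝ)
    (F x, l x)).continuousAt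
  exact ContinuousAt.comp (f := fun q => (F q, l q))
    (g := fun fg : (A' [⋀^Fin k]→L[ℝ] ℝ) × (A →L[ℝ] A') => fg.1.compContinuousLinearMap fg.2)
    h3 (hF.prodMk hl)

/-- **H1, hreg1, hext1 of `Ext`.** -/
theorem extH1 (FS G : (L → Bool) → E → (L → ℂ) → Alt 16 E)
    (reg : ∀ S e v, e.1 ∈ K6 → OnC S e.1 e.2 v → Sep S e.2 v →
      Near id S (G S) (fun g p => extDeriv g p = 0) e v)
    (hG : ∀ S e v, e.1 ∈ K6 → DistE S e v → G S e v = FS S e v)
    (hloc : RegLoc1 FS) (P : Pos1) :
    ∃ H1 : (R : Region1) → (L → Bool) → R.Sp → ℂ → (L → ℂ) → Alt 16 R.Sp,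
      (∀ (R : Region1) (S : L → Bool), (∀ j, S j = true → R.nk j = false) → ∀ p g v,
        R.ok S p g v → ∃ (W : Set R.Sp) (h : R.Sp → Alt 16 R.Sp) (r : ℝ), IsOpen W ∧ p ∈ W ∧
          0 < r ∧ ContDiffOn ℝ ∞ h W ∧ (∀ q ∈ W, extDeriv h q = 0) ∧
          ∀ q ∈ W, ∀ g' v', R.isSheet S q g' v' → ‖g' - g‖ < r →
            (∀ j, R.nk j = false → ‖v' j - v j‖ < r) → H1 R S q g' v' = h q) ∧
      ∀ (R : Region1) (S : L → Bool), (∀ j, S j = true → R.nk j = false) → ∀ p g v,
        R.ok S p g v → R.isStd p g v →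
        H1 R S p g v = (G S (R.psi p) (R.sht p g v)).compContinuousLinearMap
          (fderiv ℝ R.psi p) := by
  classical
  have key : ∀ (R : Region1) (S : L → Bool), ∃ F : R.Sp → R.Nd → Alt 16 R.Sp,
      (∀ j, S j = true → R.nk j = false) →
      (∀ p n, R.ok S p n.1 (R.exw n.2) → NearA (fun q (n : R.Nd) => R.isSheet S q n.1 (R.exw n.2))
        (fun h q => extDeriv h q = 0) F p n) ∧
      ∀ p n, R.ok S p n.1 (R.exw n.2) → R.isStd p n.1 (R.exw n.2) → R.Dst S p n.1 (R.exw n.2) →
        F p n = (FS S (R.psi p) (R.sht p n.1 (R.exw n.2))).compContinuousLinearMap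
          (fderiv ℝ R.psi p) := by
    intro R S
    by_cases hS : ∀ j, S j = true → R.nk j = false
    · obtain ⟨F, hF, hFf⟩ := exists_ext (M := R.Sp) (N := R.Nd) (V := Alt 16 R.Sp)
        (Sh := fun q n => R.isSheet S q n.1 (R.exw n.2))
        (D := fun q n => R.isStd q n.1 (R.exw n.2) ∧ R.Dst S q n.1 (R.exw n.2))
        (Ok := fun q n => R.ok S q n.1 (R.exw n.2))
        (P := fun h q => extDeriv h q = 0)
        (f := fun p n => (FS S (R.psi p) (R.sht p n.1 (R.exw n.2))).compContinuousLinearMap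
          (fderiv ℝ R.psi p))
        (fun p n ho => by
          obtain ⟨W, h, r, hW, hpW, hr, hs, hc, hf⟩ := hloc R S hS p n.1 (R.exw n.2) ho
          obtain ⟨r0, hr0, hok⟩ := R.radius (P := fun q n => R.isSheet S q n.1 (R.exw n.2) →
            R.ok S q n.1 (R.exw n.2)) (R.ok_open ho)
          refine ⟨W ∩ Metric.ball p r0, h, min r r0, hW.inter Metric.isOpen_ball,
            ⟨hpW, Metric.mem_ball_self hr0⟩, lt_min hr hr0, hs.mono inter_subset_left,
            fun q hq => hc q hq.1, fun q hq n' hSh hn hD => ?_⟩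
          have hoq := hok q n' (mem_ball_iff_norm.1 hq.2) (hn.trans_le (min_le_right _ _)) hSh
          have hn1 : ‖n'.1 - n.1‖ < r :=
            (norm_fst_le (n' - n)).trans_lt (hn.trans_le (min_le_left _ _))
          have hn2 : ∀ c, ‖n'.2 c - n.2 c‖ < r := fun c =>
            (norm_le_pi_norm (n'.2 - n.2) c).trans_lt
              ((norm_snd_le (n' - n)).trans_lt (hn.trans_le (min_le_left _ _)))
          exact (hf q hq.1 n'.1 (R.exw n'.2) hoq hn1 (fun j hj => by
            rw [R.exw_core _ hj, R.exw_core _ hj]; exact hn2 _) hD.1 hD.2).symm)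
        (fun p n ho => R.dense_gen hS ho)
        (fun p n ho => R.radius (P := fun q n => R.isSheet S q n.1 (R.exw n.2) →
            R.ok S q n.1 (R.exw n.2)) (R.ok_open ho))
      exact ⟨F, fun _ => ⟨hF, fun p n ho h1 h2 => hFf p n ho ho.2.2.1 ⟨h1, h2⟩⟩⟩
    · exact ⟨fun _ _ => 0, fun h => absurd h hS⟩
  choose F hF using key
  refine ⟨fun R S p g v => F R S p (g, R.rs v), fun R S hS p g v ho => ?_,
    fun R S hS p g v ho hst => ?_⟩
  · have hcg : ∀ j, R.nk j = false → v j = R.exw (R.rs v) j := fun j hj =>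
      (R.exw_rs v hj).symm
    have ho' : R.ok S p g (R.exw (R.rs v)) := (R.ok_congr hcg S p g).1 ho
    obtain ⟨W, h, r, hW, hpW, hr, hs, hc, hf⟩ := (hF R S hS).1 p (g, R.rs v) ho'
    refine ⟨W, h, r, hW, hpW, hr, hs, hc, fun q hq g' v' hSh hg hv => ?_⟩
    refine hf q hq (g', R.rs v') ?_ ?_
    · exact (R.isSheet_congr (fun j hj => (R.exw_rs v' hj).symm) S q g').1 hSh
    · rw [Prod.norm_def, max_lt_iff]
      exact ⟨hg, (pi_norm_lt_iff hr).2 fun c => hv c c.2⟩
  · have hcg : ∀ j, R.nk j = false → v j = R.exw (R.rs v) j := fun j hj =>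
      (R.exw_rs v hj).symm
    have ho' : R.ok S p g (R.exw (R.rs v)) := (R.ok_congr hcg S p g).1 ho
    have hst' : R.isStd p g (R.exw (R.rs v)) := (R.isStd_congr hcg p g).1 hst
    rw [R.sht_congr hcg p g]
    -- the interior form near the point
    have hK : (R.psi p).1 ∈ K6 := P.k6 R S p g _ ho'
    have hsq := P.sq R S hS p g _ ho'
    obtain ⟨W, gG, rG, hW, hpW, hrG, hsG, -, hfG⟩ := reg S (R.psi p)
      (R.sht p g (R.exw (R.rs v))) hK (fun j => ⟨hsq j, hst'.2 j⟩) (R.sep_of_ok hS ho' hst')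
    have hk : ContinuousAt (fun q : R.Sp => (gG (R.psi q)).compContinuousLinearMap
        (fderiv ℝ R.psi q)) p := by
      have c1 : ContinuousAt (fun q : R.Sp => gG (R.psi q)) p :=
        ContinuousAt.comp (g := gG) (f := R.psi)
          (hsG.continuousOn.continuousAt (hW.mem_nhds hpW)) (R.an_psi p).continuousAt
      have c2 : ContinuousAt (fun q : R.Sp => fderiv ℝ R.psi q) p :=
        ((R.contDiffAt_psi p).fderiv_right (m := 0) (by norm_num)).continuousAt
      exact continuousAt_compCLM c1 c2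
    obtain ⟨r0, hr0, hok⟩ := R.radius (P := fun q n => R.isSheet S q n.1 (R.exw n.2) →
      R.ok S q n.1 (R.exw n.2)) (R.ok_open (n := (g, R.rs v)) ho')
    have hev : ∀ᶠ x in 𝓝 ((p, (g, R.rs v)) : R.Sp × R.Nd), R.psi x.1 ∈ W ∧
        ∀ j, ‖R.sht x.1 x.2.1 (R.exw x.2.2) j - R.sht p g (R.exw (R.rs v)) j‖ < rG := by
      have h1 : ∀ᶠ x in 𝓝 ((p, (g, R.rs v)) : R.Sp × R.Nd), R.psi x.1 ∈ W :=
        (ContinuousAt.comp' (f := Prod.fst) (x := ((p, (g, R.rs v)) : R.Sp × R.Nd))
          (g := R.psi) (R.an_psi p).continuousAt continuousAt_fst).eventually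
          (hW.mem_nhds hpW)
      have h2 : ∀ᶠ x in 𝓝 ((p, (g, R.rs v)) : R.Sp × R.Nd), ∀ j,
          ‖R.sht x.1 x.2.1 (R.exw x.2.2) j - R.sht p g (R.exw (R.rs v)) j‖ < rG := by
        refine eventually_all.2 fun j => ?_
        have c := R.cont_sht (S := S) (g := g) (w := R.rs v) ho' j
        filter_upwards [c.eventually (Metric.ball_mem_nhds _ hrG)] with x hx
        exact mem_ball_iff_norm.1 hx
      exact h1.and h2
    obtain ⟨r1, hr1, hr1'⟩ := R.radius (P := fun q n => R.psi q ∈ W ∧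
      ∀ j, ‖R.sht q n.1 (R.exw n.2) j - R.sht p g (R.exw (R.rs v)) j‖ < rG) hev
    have hgp : G S (R.psi p) (R.sht p g (R.exw (R.rs v))) = gG (R.psi p) :=
      hfG (R.psi p) hpW (R.sht p g (R.exw (R.rs v))) hsq (fun j => by simpa using hrG)
    have hden := R.dense_gen hS (n := (g, R.rs v)) ho'
    have hN := (hF R S hS).1 p (g, R.rs v) ho'
    have main : F R S p (g, R.rs v) = (fun q : R.Sp =>
        (gG (R.psi q)).compContinuousLinearMap (fderiv ℝ R.psi q)) p := by
      refine hN.eq_of_dense hden ho'.2.2.1 hk (r := min r0 r1) (lt_min hr0 hr1)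
        fun q n' hq hn hSh hD => ?_
      have hoq : R.ok S q n'.1 (R.exw n'.2) :=
        hok q n' (hq.trans_le (min_le_left _ _)) (hn.trans_le (min_le_left _ _)) hSh
      obtain ⟨b1, b2⟩ := hr1' q n' (hq.trans_le (min_le_right _ _))
        (hn.trans_le (min_le_right _ _))
      have hsq' := P.sq R S hS q n'.1 _ hoq
      have e1 := (hF R S hS).2 q n' hoq hD.1 hD.2
      have e2 : G S (R.psi q) (R.sht q n'.1 (R.exw n'.2)) = gG (R.psi q) :=
        hfG (R.psi q) b1 (R.sht q n'.1 (R.exw n'.2)) hsq' b2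
      have e3 := hG S (R.psi q) (R.sht q n'.1 (R.exw n'.2)) (P.k6 R S q n'.1 _ hoq)
        ⟨fun j => ⟨hsq' j, hD.1.2 j⟩, hD.2⟩
      show F R S q n' = (gG (R.psi q)).compContinuousLinearMap (fderiv ℝ R.psi q)
      rw [e1, ← e3, e2]
    rw [hgp]
    exact main

end Vale.Agent.P273.H95

end
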