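import Vale.Agent.P273.H401.NkDefs

/-!
# P273, row ASY1, item N1 (helper95): the three clauses for arbitrary directions
-/

noncomputable section

namespace Vale.Agent.P273.H95.Nk

open Complex H598.Sol H401
open scoped Real

lemma norm_dot_le (v : ℂ × ℂ × ℝ) (c : ℂ × ℂ) : ‖dot v c‖ ≤ 2 * ‖v‖ * ‖c‖ := by
  unfold dot
  have h1 : ‖v.1‖ ≤ ‖v‖ := norm_fst_le v
  have h2 : ‖v.2.1‖ ≤ ‖v‖ := (norm_fst_le v.2).trans (norm_snd_le v)
  have h3 : ‖c.1‖ ≤ ‖c‖ := norm_fst_le c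
  have h4 : ‖c.2‖ ≤ ‖c‖ := norm_snd_le c
  refine (norm_add_le _ _).trans ?_
  rw [norm_mul, norm_mul]
  have h5 : ‖v.1‖ * ‖c.1‖ ≤ ‖v‖ * ‖c‖ := mul_le_mul h1 h3 (norm_nonneg _) (norm_nonneg _)
  have h6 : ‖v.2.1‖ * ‖c.2‖ ≤ ‖v‖ * ‖c‖ := mul_le_mul h2 h4 (norm_nonneg _) (norm_nonneg _)
  linarith

lemma abs_re_dot_le (v : ℂ × ℂ × ℝ) (c : ℂ × ℂ) : |(dot v c).re| ≤ 2 * ‖v‖ * ‖c‖ :=
  (Complex.abs_re_le_norm _).trans (norm_dot_le v c)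

section

variable {A c M y σ s β b dn δ p' X Y x x' ℓ : ℝ} {lX lY : ℂ} {v v' : ℂ × ℂ × ℝ}
  {PX PY PX' PY' : ℂ × ℂ}

lemma norm_half_add (lX lY : ℂ) : ‖(lX + lY) / 2‖ ≤ (‖lX‖ + ‖lY‖) / 2 := by
  rw [norm_div, RCLike.norm_ofNat]
  have := norm_add_le lX lY
  gcongr

lemma norm_half_sub (lX lY : ℂ) : ‖(lX - lY) / 2‖ ≤ (‖lX‖ + ‖lY‖) / 2 := by
  rw [norm_div, RCLike.norm_ofNat]
  have := norm_sub_le lX lY
  gcongr

lemma M_ge (h : NkNum A c M y σ s β b dn δ p' X Y x x' ℓ lX lY v v' PX PY PX' PY') : 1 ≤ M := by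
  have := h.A1
  have := h.hM
  linarith

lemma y_le (h : NkNum A c M y σ s β b dn δ p' X Y x x' ℓ lX lY v v' PX PY PX' PY') :
    y ≤ 2 * M := by
  have h1 : Real.log c ≤ 0 := Real.log_nonpos h.c0.le h.c1
  rw [h.hy]
  linarith

lemma inv_M_le (h : NkNum A c M y σ s β b dn δ p' X Y x x' ℓ lX lY v v' PX PY PX' PY') :
    M⁻¹ ≤ 2 * y⁻¹ := by
  have hM := M_ge h
  have hy := h.y1
  have h1 := y_le h
  rw [← div_eq_mul_inv, inv_le_comm₀ (by linarith) (by positivity), inv_div]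
  linarith

lemma abs_l_le (h : NkNum A c M y σ s β b dn δ p' X Y x x' ℓ lX lY v v' PX PY PX' PY') :
    |ℓ| ≤ M := by
  have h1 : Real.log X ≤ Real.log c := Real.log_le_log h.X0 h.Xc
  have h2 : Real.log Y ≤ Real.log c := Real.log_le_log h.Y0 h.Yc
  have h3 : Real.log X + Real.log Y = -(2 * M) := by
    rw [← Real.log_mul h.X0.ne' h.Y0.ne', h.hXY, h.hd, ← Real.exp_nat_mul, Real.log_exp]
    push_cast
    ring
  have h4 : Real.log c ≤ 0 := Real.log_nonpos h.c0.le h.c1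
  rw [h.hℓ, abs_le]
  constructor <;> linarith

lemma dn_le (h : NkNum A c M y σ s β b dn δ p' X Y x x' ℓ lX lY v v' PX PY PX' PY') :
    dn ≤ M⁻¹ := by
  have hM := M_ge h
  rw [h.hd, Real.exp_neg]
  apply inv_anti₀ (by linarith)
  have := Real.add_one_le_exp M
  linarith

/-- the sum of all terms -/
lemma abs_dU_le (h : NkNum A c M y σ s β b dn δ p' X Y x x' ℓ lX lY v v' PX PY PX' PY')
    {E V V' Q : ℝ} (hE : |x'| * M ≤ E) (hV : ‖v‖ ≤ V) (hV' : ‖v'‖ ≤ V')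
    (hQ : X * ‖lX‖ + Y * ‖lY‖ + 2 * dn ^ 2 * (‖lX‖ + ‖lY‖) + 2 * δ ≤ Q) :
    |dU x x' ℓ b lX lY v v' PX PY PX' PY'| ≤
      E + |x| * ((‖lX‖ + ‖lY‖) / 2) + |b| * ((‖lX‖ + ‖lY‖) / 2) + 4 * A * V' +
        2 * V * (A * Q) := by
  have hA := h.A1
  have h1 : |x' * ℓ| ≤ E := by
    rw [abs_mul]
    exact (mul_le_mul_of_nonneg_left (abs_l_le h) (abs_nonneg _)).trans hE
  have h2 : |x * ((lX - lY) / 2).re| ≤ |x| * ((‖lX‖ + ‖lY‖) / 2) := by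
    rw [abs_mul]
    exact mul_le_mul_of_nonneg_left ((Complex.abs_re_le_norm _).trans (norm_half_sub _ _))
      (abs_nonneg _)
  have h3 : |b / π * ((lX - lY) / 2).im| ≤ |b| * ((‖lX‖ + ‖lY‖) / 2) := by
    rw [abs_mul, abs_div, abs_of_pos Real.pi_pos]
    have h4 : |b| / π ≤ |b| := div_le_self (abs_nonneg _) (by linarith [Real.pi_gt_three])
    exact mul_le_mul h4 ((Complex.abs_im_le_norm _).trans (norm_half_sub _ _)) (abs_nonneg _)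
      (abs_nonneg _)
  have h4 : |(dot v' (PX - PY)).re| ≤ 4 * A * V' := by
    refine (abs_re_dot_le _ _).trans ?_
    have h5 : ‖PX - PY‖ ≤ 2 * A := by
      refine (norm_sub_le _ _).trans ?_
      linarith [h.hPX, h.hPY]
    have h6 : (0 : ℝ) ≤ ‖v'‖ := norm_nonneg _
    have h7 : (0 : ℝ) ≤ V' := h6.trans hV'
    have h8 : 2 * ‖v'‖ * ‖PX - PY‖ ≤ 2 * V' * (2 * A) := by gcongr
    linarith
  have h5 : |(dot v (PX' - PY')).re| ≤ 2 * V * (A * Q) := by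
    refine (abs_re_dot_le _ _).trans ?_
    have h6 : ‖PX' - PY'‖ ≤ A * Q := by
      refine (norm_sub_le _ _).trans ?_
      have h7 := h.hPX'
      have h8 := h.hPY'
      have h9 := norm_half_add lX lY
      have h10 : (0 : ℝ) ≤ dn ^ 2 := sq_nonneg _
      have h11 : A * (X * ‖lX‖ + 2 * dn ^ 2 * ‖(lX + lY) / 2‖ + δ) +
          A * (Y * ‖lY‖ + 2 * dn ^ 2 * ‖(lX + lY) / 2‖ + δ) ≤ A * Q := by
        rw [← mul_add]
        refine mul_le_mul_of_nonneg_left ?_ (by linarith)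
        have : 2 * dn ^ 2 * ‖(lX + lY) / 2‖ ≤ 2 * dn ^ 2 * ((‖lX‖ + ‖lY‖) / 2) := by gcongr
        linarith
      linarith
    have h7 : (0 : ℝ) ≤ V := (norm_nonneg _).trans hV
    have h8 : 2 * ‖v‖ * ‖PX' - PY'‖ ≤ 2 * V * (A * Q) := by gcongr
    exact h8
  unfold dU
  have e1 := abs_add_le (x' * ℓ + x * ((lX - lY) / 2).re - b / π * ((lX - lY) / 2).im +
    (dot v' (PX - PY)).re) (dot v (PX' - PY')).re
  have e2 := abs_add_le (x' * ℓ + x * ((lX - lY) / 2).re - b / π * ((lX - lY) / 2).im)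
    (dot v' (PX - PY)).re
  have e3 := abs_sub (x' * ℓ + x * ((lX - lY) / 2).re) (b / π * ((lX - lY) / 2).im)
  have e4 := abs_add_le (x' * ℓ) (x * ((lX - lY) / 2).re)
  linarith

lemma p_le (h : NkNum A c M y σ s β b dn δ p' X Y x x' ℓ lX lY v v' PX PY PX' PY') :
    p' ≤ δ + M⁻¹ * ((‖lX‖ + ‖lY‖) / 2) := by
  have h1 := h.hp
  have h2 : dn * ‖(lX + lY) / 2‖ ≤ M⁻¹ * ((‖lX‖ + ‖lY‖) / 2) :=
    mul_le_mul (dn_le h) (norm_half_add _ _) (norm_nonneg _)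
      (inv_nonneg.2 (by linarith [M_ge h]))
  linarith

lemma dn_nonneg (h : NkNum A c M y σ s β b dn δ p' X Y x x' ℓ lX lY v v' PX PY PX' PY') :
    0 ≤ dn := by
  rw [h.hd]
  positivity

lemma dn_sq_le (h : NkNum A c M y σ s β b dn δ p' X Y x x' ℓ lX lY v v' PX PY PX' PY') :
    dn ^ 2 ≤ M⁻¹ := by
  have h1 := dn_le h
  have h0 := dn_nonneg h
  have h2 : M⁻¹ ≤ 1 := inv_le_one_of_one_le₀ (M_ge h)
  nlinarith

/-- all terms, with the sizes `S`, `E` -/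
lemma abs_dU_le' (h : NkNum A c M y σ s β b dn δ p' X Y x x' ℓ lX lY v v' PX PY PX' PY')
    {S G W W₁ : ℝ} (hS : A * σ + s + 2 * β ≤ S)
    (hG : A * σ * p' + β * ((‖lX‖ + ‖lY‖) / 2) ≤ G)
    (hW : (‖lX‖ + ‖lY‖) / 2 + A * p' ≤ W)
    (hW₁ : X * ‖lX‖ + Y * ‖lY‖ + 2 * M⁻¹ * (‖lX‖ + ‖lY‖) + 2 * δ ≤ W₁) :
    |dU x x' ℓ b lX lY v v' PX PY PX' PY'| ≤
      (2 * G + 4 * S * W * M⁻¹) + S * M⁻¹ * (‖lX‖ + ‖lY‖) + β * ((‖lX‖ + ‖lY‖) / 2) +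
      4 * A * (A * σ * p' + A * (2 * S * M⁻¹) * p' + A * (2 * G + 4 * S * W * M⁻¹) * M⁻¹) +
      2 * (A * σ + A * (2 * S * M⁻¹)) * (A * W₁) := by
  have hA := h.A1
  have hA0 : 0 ≤ A := by linarith
  have hM := M_ge h
  have hM0 : (0 : ℝ) < M := by linarith
  have hr0 : 0 ≤ M⁻¹ := inv_nonneg.2 hM0.le
  have hr : M * M⁻¹ = 1 := mul_inv_cancel₀ hM0.ne'
  have hL0 : 0 ≤ (‖lX‖ + ‖lY‖) / 2 := by positivity
  have hβ : 0 ≤ β := (abs_nonneg _).trans h.hb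
  have hσ := h.σ0
  have hs := h.s0
  have hp0 := h.p0
  have hS0 : 0 ≤ S := by
    have : 0 ≤ A * σ := by positivity
    linarith
  have hre : |((lX + lY) / 2).re| ≤ (‖lX‖ + ‖lY‖) / 2 :=
    (Complex.abs_re_le_norm _).trans (norm_half_add _ _)
  have him : |((lX + lY) / 2).im| ≤ (‖lX‖ + ‖lY‖) / 2 :=
    (Complex.abs_im_le_norm _).trans (norm_half_add _ _)
  have hW0 : 0 ≤ W := by
    have : 0 ≤ A * p' := by positivity
    linarith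
  have hG0 : 0 ≤ G := by
    have : 0 ≤ A * σ * p' := by positivity
    have : 0 ≤ β * ((‖lX‖ + ‖lY‖) / 2) := by positivity
    linarith
  have h1 : A * σ * p' + β * |((lX + lY) / 2).im| ≤ G := by
    have : β * |((lX + lY) / 2).im| ≤ β * ((‖lX‖ + ‖lY‖) / 2) := by gcongr
    linarith
  have h2 : |((lX + lY) / 2).re| + A * p' ≤ W := by linarith
  have h3 : 2 * (A * σ * p' + β * |((lX + lY) / 2).im|) / M +
      4 * (A * σ + s + 2 * β) * (|((lX + lY) / 2).re| + A * p') / M ^ 2 ≤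
      (2 * G + 4 * S * W * M⁻¹) * M⁻¹ := by
    have e1 : 2 * (A * σ * p' + β * |((lX + lY) / 2).im|) / M ≤ 2 * G * M⁻¹ := by
      rw [div_eq_mul_inv]
      gcongr
    have e2 : 4 * (A * σ + s + 2 * β) * (|((lX + lY) / 2).re| + A * p') / M ^ 2 ≤
        4 * S * W * (M⁻¹ * M⁻¹) := by
      rw [div_eq_mul_inv]
      have : (M ^ 2)⁻¹ = M⁻¹ * M⁻¹ := by rw [sq, mul_inv]
      rw [this]
      gcongr
    calc _ ≤ 2 * G * M⁻¹ + 4 * S * W * (M⁻¹ * M⁻¹) := add_le_add e1 e2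
      _ = _ := by ring
  have hx' := h.hx'.trans h3
  have hE0 : 0 ≤ (2 * G + 4 * S * W * M⁻¹) := by positivity
  have hE : |x'| * M ≤ 2 * G + 4 * S * W * M⁻¹ := by
    calc |x'| * M ≤ ((2 * G + 4 * S * W * M⁻¹) * M⁻¹) * M := by gcongr
      _ = (2 * G + 4 * S * W * M⁻¹) * (M * M⁻¹) := by ring
      _ = _ := by rw [hr, mul_one]
  have hx : |x| ≤ 2 * S * M⁻¹ := by
    refine h.hx.trans ?_
    rw [div_eq_mul_inv]
    gcongr
  have hx2 : 2 * (A * σ + s + 2 * β) / M ≤ 2 * S * M⁻¹ := by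
    rw [div_eq_mul_inv]
    gcongr
  have hV : ‖v‖ ≤ A * σ + A * (2 * S * M⁻¹) := by
    refine h.hv.trans ?_
    gcongr
  have hV' : ‖v'‖ ≤ A * σ * p' + A * (2 * S * M⁻¹) * p' +
      A * (2 * G + 4 * S * W * M⁻¹) * M⁻¹ := by
    refine h.hv'.trans ?_
    have e1 : A * (2 * (A * σ + s + 2 * β) / M) * p' ≤ A * (2 * S * M⁻¹) * p' := by gcongr
    have e2 := mul_le_mul_of_nonneg_left h3 hA0
    have e3 : A * ((2 * G + 4 * S * W * M⁻¹) * M⁻¹) = A * (2 * G + 4 * S * W * M⁻¹) * M⁻¹ := by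
      ring
    linarith
  have hQ : X * ‖lX‖ + Y * ‖lY‖ + 2 * dn ^ 2 * (‖lX‖ + ‖lY‖) + 2 * δ ≤ W₁ := by
    have : 2 * dn ^ 2 * (‖lX‖ + ‖lY‖) ≤ 2 * M⁻¹ * (‖lX‖ + ‖lY‖) := by
      have := dn_sq_le h
      gcongr
    linarith
  have key := abs_dU_le h hE hV hV' hQ
  have e1 : |x| * ((‖lX‖ + ‖lY‖) / 2) ≤ S * M⁻¹ * (‖lX‖ + ‖lY‖) := by
    calc |x| * ((‖lX‖ + ‖lY‖) / 2) ≤ 2 * S * M⁻¹ * ((‖lX‖ + ‖lY‖) / 2) := by gcongr
      _ = _ := by ring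
  have e2 : |b| * ((‖lX‖ + ‖lY‖) / 2) ≤ β * ((‖lX‖ + ‖lY‖) / 2) :=
    mul_le_mul_of_nonneg_right h.hb hL0
  linarith

end

/-- `NkNum` implies the first clause -/
lemma t0 {A c M y b dn δ p' X Y x x' ℓ N : ℝ} {lX lY : ℂ} {v v' : ℂ × ℂ × ℝ}
    {PX PY PX' PY' : ℂ × ℂ} (hN : 0 ≤ N)
    (h : NkNum A c M y N N (2 * N) b dn δ p' X Y x x' ℓ lX lY v v' PX PY PX' PY') :
    |dU x x' ℓ b lX lY v v' PX PY PX' PY'| ≤ 500 * A ^ 4 * N * (δ + ‖lX‖ + ‖lY‖) := by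
  have hA := h.A1
  have hA0 : 0 ≤ A := by linarith
  have hM := M_ge h
  have hr0 : 0 ≤ M⁻¹ := inv_nonneg.2 (by linarith)
  have hr1 : M⁻¹ ≤ 1 := inv_le_one_of_one_le₀ hM
  have hδ := h.δ0
  have hp0 := h.p0
  have hlX : 0 ≤ ‖lX‖ := norm_nonneg _
  have hlY : 0 ≤ ‖lY‖ := norm_nonneg _
  have hX1 : X ≤ 1 := h.Xc.trans h.c1
  have hY1 : Y ≤ 1 := h.Yc.trans h.c1
  set w := δ + ‖lX‖ + ‖lY‖ with hw
  have hw0 : 0 ≤ w := by positivity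
  have hL : ‖lX‖ + ‖lY‖ ≤ w := by linarith
  have hp : p' ≤ w := by
    refine (p_le h).trans ?_
    have : M⁻¹ * ((‖lX‖ + ‖lY‖) / 2) ≤ 1 * ((‖lX‖ + ‖lY‖) / 2) := by gcongr
    linarith
  have hANw : 0 ≤ A * N * w := by positivity
  have key := abs_dU_le' h (S := 6 * A * N) (G := 3 * A * N * w) (W := 2 * A * w)
    (W₁ := 3 * w) ?_ ?_ ?_ ?_
  · refine key.trans ?_
    calc _ ≤ (2 * (3 * A * N * w) + 4 * (6 * A * N) * (2 * A * w) * 1) + (6 * A * N) * 1 * w +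
        2 * N * (w / 2) + 4 * A * (A * N * w + A * (2 * (6 * A * N) * 1) * w +
          A * (2 * (3 * A * N * w) + 4 * (6 * A * N) * (2 * A * w) * 1) * 1) +
        2 * (A * N + A * (2 * (6 * A * N) * 1)) * (A * (3 * w)) := by gcongr
      _ = (1 + 12 * A + 58 * A ^ 2 + 144 * A ^ 3 + 192 * A ^ 4) * (N * w) := by ring
      _ ≤ (500 * A ^ 4) * (N * w) := by
          refine mul_le_mul_of_nonneg_right ?_ (by positivity)
          have h1 : A ^ 1 ≤ A ^ 4 := pow_le_pow_right₀ hA (by norm_num)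
          have h2 : A ^ 2 ≤ A ^ 4 := pow_le_pow_right₀ hA (by norm_num)
          have h3 : A ^ 3 ≤ A ^ 4 := pow_le_pow_right₀ hA (by norm_num)
          have h4 : 1 ≤ A ^ 4 := one_le_pow₀ hA
          rw [pow_one] at h1
          linarith
      _ = _ := by ring
  · have : N ≤ A * N := le_mul_of_one_le_left hN hA
    linarith
  · have h1 : A * N * p' ≤ A * N * w := by gcongr
    have h2 : 2 * N * ((‖lX‖ + ‖lY‖) / 2) ≤ A * N * w := by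
      have : N * (‖lX‖ + ‖lY‖) ≤ (A * N) * w := by
        have : N ≤ A * N := le_mul_of_one_le_left hN hA
        gcongr
      linarith
    linarith
  · have h1 : A * p' ≤ A * w := by gcongr
    have h2 : w ≤ A * w := le_mul_of_one_le_left hw0 hA
    linarith
  · have h1 : X * ‖lX‖ ≤ 1 * ‖lX‖ := by gcongr
    have h2 : Y * ‖lY‖ ≤ 1 * ‖lY‖ := by gcongr
    have h3 : 2 * M⁻¹ * (‖lX‖ + ‖lY‖) ≤ 2 * 1 * (‖lX‖ + ‖lY‖) := by gcongr
    linarith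

/-- the second clause -/
lemma t1 {A c M y b dn δ p' X Y x x' ℓ N : ℝ} {lX lY : ℂ} {v v' : ℂ × ℂ × ℝ}
    {PX PY PX' PY' : ℂ × ℂ} (hN : 0 ≤ N)
    (h : NkNum A c M y N N 0 b dn δ p' X Y x x' ℓ lX lY v v' PX PY PX' PY') :
    |dU x x' ℓ b lX lY v v' PX PY PX' PY'| ≤
      500 * A ^ 4 * N * (δ + (X + y⁻¹) * ‖lX‖ + (Y + y⁻¹) * ‖lY‖) := by
  have hA := h.A1
  have hA0 : 0 ≤ A := by linarith
  have hM := M_ge h
  have hy := h.y1
  have ht0 : 0 ≤ y⁻¹ := inv_nonneg.2 (by linarith)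
  have hrt := inv_M_le h
  have hr0 : 0 ≤ M⁻¹ := inv_nonneg.2 (by linarith)
  have hr1 : M⁻¹ ≤ 1 := inv_le_one_of_one_le₀ hM
  have hδ := h.δ0
  have hp0 := h.p0
  have hlX : 0 ≤ ‖lX‖ := norm_nonneg _
  have hlY : 0 ≤ ‖lY‖ := norm_nonneg _
  have hX0 := h.X0.le
  have hY0 := h.Y0.le
  set w := δ + (X + y⁻¹) * ‖lX‖ + (Y + y⁻¹) * ‖lY‖ with hw
  have hw0 : 0 ≤ w := by positivity
  have hXl : 0 ≤ X * ‖lX‖ := by positivity
  have hYl : 0 ≤ Y * ‖lY‖ := by positivity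
  have htL0 : 0 ≤ y⁻¹ * (‖lX‖ + ‖lY‖) := by positivity
  have hw2 : w = δ + (X * ‖lX‖ + Y * ‖lY‖) + y⁻¹ * (‖lX‖ + ‖lY‖) := by
    rw [hw]
    ring
  have hrL : M⁻¹ * (‖lX‖ + ‖lY‖) ≤ 2 * w := by
    have : M⁻¹ * (‖lX‖ + ‖lY‖) ≤ 2 * y⁻¹ * (‖lX‖ + ‖lY‖) := by gcongr
    linarith
  have hrL2 : M⁻¹ * ((‖lX‖ + ‖lY‖) / 2) ≤ y⁻¹ * (‖lX‖ + ‖lY‖) := by
    have : M⁻¹ * ((‖lX‖ + ‖lY‖) / 2) ≤ 2 * y⁻¹ * ((‖lX‖ + ‖lY‖) / 2) := by gcongr
    linarith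
  have hp : p' ≤ w := by
    have := p_le h
    linarith
  have hWr : ((‖lX‖ + ‖lY‖) / 2 + A * p') * M⁻¹ ≤ 2 * A * w := by
    have h1 : ((‖lX‖ + ‖lY‖) / 2) * M⁻¹ ≤ w := by
      have : ((‖lX‖ + ‖lY‖) / 2) * M⁻¹ = M⁻¹ * ((‖lX‖ + ‖lY‖) / 2) := mul_comm _ _
      linarith
    have h2 : A * p' * M⁻¹ ≤ A * w * 1 := by gcongr
    have h3 : w ≤ A * w := le_mul_of_one_le_left hw0 hA
    calc ((‖lX‖ + ‖lY‖) / 2 + A * p') * M⁻¹
        = ((‖lX‖ + ‖lY‖) / 2) * M⁻¹ + A * p' * M⁻¹ := by ring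
      _ ≤ 2 * A * w := by linarith
  have key := abs_dU_le' h (S := 2 * A * N) (G := A * N * w)
    (W := (‖lX‖ + ‖lY‖) / 2 + A * p') (W₁ := 7 * w) ?_ ?_ le_rfl ?_
  · refine key.trans ?_
    have hE : 2 * (A * N * w) + 4 * (2 * A * N) * ((‖lX‖ + ‖lY‖) / 2 + A * p') * M⁻¹ ≤
        2 * (A * N * w) + 4 * (2 * A * N) * (2 * A * w) := by
      have : 4 * (2 * A * N) * ((‖lX‖ + ‖lY‖) / 2 + A * p') * M⁻¹ =
          4 * (2 * A * N) * (((‖lX‖ + ‖lY‖) / 2 + A * p') * M⁻¹) := by ring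
      rw [this]
      gcongr
    have hE0 : 0 ≤ 2 * (A * N * w) + 4 * (2 * A * N) * (2 * A * w) := by positivity
    have e1 : 2 * A * N * M⁻¹ * (‖lX‖ + ‖lY‖) ≤ 2 * A * N * (2 * w) := by
      have : 2 * A * N * M⁻¹ * (‖lX‖ + ‖lY‖) = 2 * A * N * (M⁻¹ * (‖lX‖ + ‖lY‖)) := by ring
      rw [this]
      gcongr
    have e2 : 4 * A * (A * N * p' + A * (2 * (2 * A * N) * M⁻¹) * p' +
        A * (2 * (A * N * w) + 4 * (2 * A * N) * ((‖lX‖ + ‖lY‖) / 2 + A * p') * M⁻¹) * M⁻¹) ≤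
        4 * A * (A * N * w + A * (2 * (2 * A * N) * 1) * w +
        A * (2 * (A * N * w) + 4 * (2 * A * N) * (2 * A * w)) * 1) := by
      gcongr
    have e3 : 2 * (A * N + A * (2 * (2 * A * N) * M⁻¹)) * (A * (7 * w)) ≤
        2 * (A * N + A * (2 * (2 * A * N) * 1)) * (A * (7 * w)) := by
      gcongr
    calc _ ≤ (2 * (A * N * w) + 4 * (2 * A * N) * (2 * A * w)) + 2 * A * N * (2 * w) + 0 +
        4 * A * (A * N * w + A * (2 * (2 * A * N) * 1) * w +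
        A * (2 * (A * N * w) + 4 * (2 * A * N) * (2 * A * w)) * 1) +
        2 * (A * N + A * (2 * (2 * A * N) * 1)) * (A * (7 * w)) := by
          rw [zero_mul]
          exact add_le_add (add_le_add (add_le_add (add_le_add hE e1) le_rfl) e2) e3
      _ = (6 * A + 34 * A ^ 2 + 80 * A ^ 3 + 64 * A ^ 4) * (N * w) := by ring
      _ ≤ (500 * A ^ 4) * (N * w) := by
          refine mul_le_mul_of_nonneg_right ?_ (by positivity)
          have h1 : A ^ 1 ≤ A ^ 4 := pow_le_pow_right₀ hA (by norm_num)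
          have h2 : A ^ 2 ≤ A ^ 4 := pow_le_pow_right₀ hA (by norm_num)
          have h3 : A ^ 3 ≤ A ^ 4 := pow_le_pow_right₀ hA (by norm_num)
          have h4 : 1 ≤ A ^ 4 := one_le_pow₀ hA
          rw [pow_one] at h1
          linarith
      _ = _ := by ring
  · have : N ≤ A * N := le_mul_of_one_le_left hN hA
    linarith
  · have h1 : A * N * p' ≤ A * N * w := by gcongr
    rw [zero_mul, add_zero]
    exact h1
  · have h3 : 2 * M⁻¹ * (‖lX‖ + ‖lY‖) = 2 * (M⁻¹ * (‖lX‖ + ‖lY‖)) := by ring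
    linarith

/-- the third clause -/
lemma t2 {A c M y b dn δ p' X Y x x' ℓ : ℝ} {lX lY : ℂ} {v v' : ℂ × ℂ × ℝ}
    {PX PY PX' PY' : ℂ × ℂ}
    (h : NkNum A c M y 0 1 0 b dn δ p' X Y x x' ℓ lX lY v v' PX PY PX' PY') :
    |dU x x' ℓ b lX lY v v' PX PY PX' PY'| ≤ 500 * A ^ 4 * y⁻¹ * (δ + ‖lX‖ + ‖lY‖) := by
  have hA := h.A1
  have hA0 : 0 ≤ A := by linarith
  have hM := M_ge h
  have hy := h.y1
  have ht0 : 0 ≤ y⁻¹ := inv_nonneg.2 (by linarith)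
  have hrt := inv_M_le h
  have hr0 : 0 ≤ M⁻¹ := inv_nonneg.2 (by linarith)
  have hr1 : M⁻¹ ≤ 1 := inv_le_one_of_one_le₀ hM
  have hδ := h.δ0
  have hp0 := h.p0
  have hlX : 0 ≤ ‖lX‖ := norm_nonneg _
  have hlY : 0 ≤ ‖lY‖ := norm_nonneg _
  have hX1 : X ≤ 1 := h.Xc.trans h.c1
  have hY1 : Y ≤ 1 := h.Yc.trans h.c1
  set w := δ + ‖lX‖ + ‖lY‖ with hw
  have hw0 : 0 ≤ w := by positivity
  have hL : ‖lX‖ + ‖lY‖ ≤ w := by linarith
  have hp : p' ≤ w := by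
    refine (p_le h).trans ?_
    have : M⁻¹ * ((‖lX‖ + ‖lY‖) / 2) ≤ 1 * ((‖lX‖ + ‖lY‖) / 2) := by gcongr
    linarith
  have key := abs_dU_le' h (S := 1) (G := 0) (W := 2 * A * w)
    (W₁ := 3 * w) ?_ ?_ ?_ ?_
  · refine key.trans ?_
    have e0 : 2 * (0 : ℝ) + 4 * 1 * (2 * A * w) * M⁻¹ ≤ 16 * A * w * y⁻¹ := by
      calc 2 * (0 : ℝ) + 4 * 1 * (2 * A * w) * M⁻¹ = 8 * A * w * M⁻¹ := by ring
        _ ≤ 8 * A * w * (2 * y⁻¹) := by gcongr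
        _ = _ := by ring
    have e1 : 1 * M⁻¹ * (‖lX‖ + ‖lY‖) ≤ 2 * y⁻¹ * w := by
      rw [one_mul]
      gcongr
    have e2 : 4 * A * (A * 0 * p' + A * (2 * 1 * M⁻¹) * p' +
        A * (2 * (0 : ℝ) + 4 * 1 * (2 * A * w) * M⁻¹) * M⁻¹) ≤
        4 * A * (A * (2 * (2 * y⁻¹)) * w + A * (16 * A * w * y⁻¹) * 1) := by
      have f1 : A * 0 * p' + A * (2 * 1 * M⁻¹) * p' = A * (2 * M⁻¹) * p' := by ring
      rw [f1]
      gcongr
    have e3 : 2 * (A * 0 + A * (2 * 1 * M⁻¹)) * (A * (3 * w)) ≤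
        2 * (A * (2 * (2 * y⁻¹))) * (A * (3 * w)) := by
      have f1 : A * 0 + A * (2 * 1 * M⁻¹) = A * (2 * M⁻¹) := by ring
      rw [f1]
      gcongr
    calc _ ≤ 16 * A * w * y⁻¹ + 2 * y⁻¹ * w + 0 +
        4 * A * (A * (2 * (2 * y⁻¹)) * w + A * (16 * A * w * y⁻¹) * 1) +
        2 * (A * (2 * (2 * y⁻¹))) * (A * (3 * w)) := by
          rw [zero_mul]
          exact add_le_add (add_le_add (add_le_add (add_le_add e0 e1) le_rfl) e2) e3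
      _ = (2 + 16 * A + 40 * A ^ 2 + 64 * A ^ 3) * (y⁻¹ * w) := by ring
      _ ≤ (500 * A ^ 4) * (y⁻¹ * w) := by
          refine mul_le_mul_of_nonneg_right ?_ (by positivity)
          have h1 : A ^ 1 ≤ A ^ 4 := pow_le_pow_right₀ hA (by norm_num)
          have h2 : A ^ 2 ≤ A ^ 4 := pow_le_pow_right₀ hA (by norm_num)
          have h3 : A ^ 3 ≤ A ^ 4 := pow_le_pow_right₀ hA (by norm_num)
          have h4 : 1 ≤ A ^ 4 := one_le_pow₀ hA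
          rw [pow_one] at h1
          linarith
      _ = _ := by ring
  · norm_num
  · norm_num
  · have h1 : A * p' ≤ A * w := by gcongr
    have h2 : w ≤ A * w := le_mul_of_one_le_left hw0 hA
    linarith
  · have h1 : X * ‖lX‖ ≤ 1 * ‖lX‖ := by gcongr
    have h2 : Y * ‖lY‖ ≤ 1 * ‖lY‖ := by gcongr
    have h3 : 2 * M⁻¹ * (‖lX‖ + ‖lY‖) ≤ 2 * 1 * (‖lX‖ + ‖lY‖) := by gcongr
    linarith

/-- **The three clauses for arbitrary directions** -/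
theorem nkT : H401.NkT := by
  intro A c hA _ _
  refine ⟨500 * A ^ 4, by positivity, ?_⟩
  intro M y b dn δ p' X Y x x' ℓ lX lY v v' PX PY PX' PY'
  exact ⟨fun N hN h => t0 hN h, fun N hN h => t1 hN h, fun h => t2 h⟩

end Vale.Agent.P273.H95.Nk

end
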