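import Mathlib

/-!
P273, abstract gluing: a form `f` (depending on sheets `v`), known at the generic points `D` and
locally equal there to one smooth closed form, extends to all admissible points.
-/

noncomputable section

namespace Vale.Agent.P273.H95

open Set Filter Metric
open scoped Topology ContDiff

section
variable {M N V : Type*} [NormedAddCommGroup M] [NormedAddCommGroup N] [NormedAddCommGroup V]

/-- Density of the generic points (with sheets) near `(p,v)`. -/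
def DenseAt (Sh D : M → N → Prop) (p : M) (v : N) : Prop :=
  ∀ r > 0, ∃ q v', ‖q - p‖ < r ∧ ‖v' - v‖ < r ∧ Sh q v' ∧ D q v'

theorem DenseAt.frequently {Sh D : M → N → Prop} {p : M} {v : N} (hd : DenseAt Sh D p v)
    {P : M → Prop} {r : ℝ} (hr : 0 < r)
    (H : ∀ q v', ‖q - p‖ < r → ‖v' - v‖ < r → Sh q v' → D q v' → P q) : ∃ᶠ q in 𝓝 p, P q := by
  rw [Metric.nhds_basis_ball.frequently_iff]
  intro s hs
  obtain ⟨q, v', h1, h2, h3, h4⟩ := hd (min r s) (lt_min hr hs)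
  exact ⟨q, by rw [mem_ball_iff_norm]; exact h1.trans_le (min_le_right _ _),
    H q v' (h1.trans_le (min_le_left _ _)) (h2.trans_le (min_le_left _ _)) h3 h4⟩

/-- Two functions continuous at `p` that agree at the generic points near `(p,v)` agree at `p`. -/
theorem DenseAt.eq {Sh D : M → N → Prop} {p : M} {v : N} (hd : DenseAt Sh D p v) {h k : M → V}
    (hh : ContinuousAt h p) (hk : ContinuousAt k p) {r : ℝ} (hr : 0 < r)
    (H : ∀ q v', ‖q - p‖ < r → ‖v' - v‖ < r → Sh q v' → D q v' → h q = k q) : h p = k p :=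
  tendsto_nhds_unique_of_frequently_eq hh hk (hd.frequently hr H)

end

section
variable {M N V : Type*} [NormedAddCommGroup M] [NormedSpace ℝ M] [NormedAddCommGroup N]
  [NormedAddCommGroup V] [NormedSpace ℝ V]

/-- Near `(p,v)`, `f` is at the points of `D` given by one smooth function `h`, and `P h` holds. -/
def NearD (Sh D : M → N → Prop) (P : (M → V) → M → Prop) (f : M → N → V) (p : M) (v : N) : Prop :=
  ∃ (W : Set M) (h : M → V) (r : ℝ), IsOpen W ∧ p ∈ W ∧ 0 < r ∧ ContDiffOn ℝ ∞ h W ∧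
    (∀ q ∈ W, P h q) ∧ ∀ q ∈ W, ∀ v', Sh q v' → ‖v' - v‖ < r → D q v' → f q v' = h q

/-- The same at all points. -/
def NearA (Sh : M → N → Prop) (P : (M → V) → M → Prop) (F : M → N → V) (p : M) (v : N) : Prop :=
  ∃ (W : Set M) (h : M → V) (r : ℝ), IsOpen W ∧ p ∈ W ∧ 0 < r ∧ ContDiffOn ℝ ∞ h W ∧
    (∀ q ∈ W, P h q) ∧ ∀ q ∈ W, ∀ v', Sh q v' → ‖v' - v‖ < r → F q v' = h q

/-- **Gluing.** -/
theorem exists_ext {Sh D Ok : M → N → Prop} {P : (M → V) → M → Prop} {f : M → N → V}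
    (hloc : ∀ p v, Ok p v → NearD Sh D P f p v)
    (hden : ∀ p v, Ok p v → DenseAt Sh D p v)
    (hop : ∀ p v, Ok p v → ∃ r > 0, ∀ q v', ‖q - p‖ < r → ‖v' - v‖ < r → Sh q v' → Ok q v') :
    ∃ F : M → N → V, (∀ p v, Ok p v → NearA Sh P F p v) ∧
      ∀ p v, Ok p v → Sh p v → D p v → F p v = f p v := by
  classical
  choose W h r hW hpW hr hs hP hf using hloc
  refine ⟨fun p v => if ho : Ok p v then h p v ho p else 0, fun p v ho => ?_,
    fun p v ho hS hD => ?_⟩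
  · obtain ⟨ρ, hρ, hρo⟩ := hop p v ho
    refine ⟨W p v ho ∩ ball p ρ, h p v ho, min ρ (r p v ho / 2), (hW p v ho).inter isOpen_ball,
      ⟨hpW p v ho, mem_ball_self hρ⟩, lt_min hρ (half_pos (hr p v ho)),
      (hs p v ho).mono inter_subset_left, fun q hq => hP p v ho q hq.1, fun q hq v' hS hv => ?_⟩
    have hq2 : ‖q - p‖ < ρ := mem_ball_iff_norm.1 hq.2
    have hoq : Ok q v' := hρo q v' hq2 (hv.trans_le (min_le_left _ _)) hS
    have hv2 : ‖v' - v‖ < r p v ho / 2 := hv.trans_le (min_le_right _ _)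
    simp only [hoq, dif_pos]
    have c1 : ContinuousAt (h q v' hoq) q :=
      (hs q v' hoq).continuousOn.continuousAt ((hW q v' hoq).mem_nhds (hpW q v' hoq))
    have c2 : ContinuousAt (h p v ho) q :=
      (hs p v ho).continuousOn.continuousAt ((hW p v ho).mem_nhds hq.1)
    obtain ⟨s, hs0, hsW⟩ := Metric.isOpen_iff.1 ((hW q v' hoq).inter (hW p v ho)) q
      ⟨hpW q v' hoq, hq.1⟩
    refine (hden q v' hoq).eq c1 c2 (r := min s (min (r q v' hoq) (r p v ho / 2)))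
      (lt_min hs0 (lt_min (hr q v' hoq) (half_pos (hr p v ho)))) fun x w hx hw hSw hDw => ?_
    have hxW := hsW (mem_ball_iff_norm.2 (hx.trans_le (min_le_left _ _)))
    have hw1 : ‖w - v'‖ < r q v' hoq :=
      hw.trans_le ((min_le_right _ _).trans (min_le_left _ _))
    have hw2 : ‖w - v'‖ < r p v ho / 2 :=
      hw.trans_le ((min_le_right _ _).trans (min_le_right _ _))
    have hw3 : ‖w - v‖ < r p v ho := by
      calc ‖w - v‖ = ‖(w - v') + (v' - v)‖ := by rw [sub_add_sub_cancel]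
        _ ≤ ‖w - v'‖ + ‖v' - v‖ := norm_add_le _ _
        _ < r p v ho := by linarith
    rw [← hf q v' hoq x hxW.1 w hSw hw1 hDw, ← hf p v ho x hxW.2 w hSw hw3 hDw]
  · simp only [ho, dif_pos]
    exact (hf p v ho p (hpW p v ho) v hS (by simpa using hr p v ho) hD).symm

/-- **Identities extend** from the generic points near `(p,v)` to `(p,v)`. -/
theorem NearA.eq_of_dense {Sh D : M → N → Prop} {P : (M → V) → M → Prop} {F : M → N → V} {p : M}
    {v : N} (hF : NearA Sh P F p v) (hd : DenseAt Sh D p v) (hS : Sh p v) {k : M → V}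
    (hk : ContinuousAt k p) {r : ℝ} (hr : 0 < r)
    (H : ∀ q v', ‖q - p‖ < r → ‖v' - v‖ < r → Sh q v' → D q v' → F q v' = k q) :
    F p v = k p := by
  obtain ⟨W, h, s, hW, hpW, hs, hc, -, hf⟩ := hF
  obtain ⟨t, ht, htW⟩ := Metric.isOpen_iff.1 hW p hpW
  rw [hf p hpW v hS (by simpa using hs)]
  refine hd.eq (hc.continuousOn.continuousAt (hW.mem_nhds hpW)) hk (r := min r (min s t))
    (lt_min hr (lt_min hs ht)) fun q v' hq hv hS' hD' => ?_
  rw [← H q v' (hq.trans_le (min_le_left _ _)) (hv.trans_le (min_le_left _ _)) hS' hD']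
  exact (hf q (htW (mem_ball_iff_norm.2 (hq.trans_le ((min_le_right _ _).trans
    (min_le_right _ _))))) v' hS' (hv.trans_le ((min_le_right _ _).trans (min_le_left _ _)))).symm

end

/-- **Gluing without sheets.** -/
theorem exists_ext0 {M : Type*} [NormedAddCommGroup M] [NormedSpace ℝ M] {k : ℕ} {O : Set M}
    (hO : IsOpen O) {D : M → Prop} {f : M → M [⋀^Fin k]→L[ℝ] ℝ}
    (hloc : ∀ p ∈ O, ∃ (W : Set M) (h : M → M [⋀^Fin k]→L[ℝ] ℝ), IsOpen W ∧ p ∈ W ∧
      ContDiffOn ℝ ∞ h W ∧ (∀ q ∈ W, extDeriv h q = 0) ∧ ∀ q ∈ W, D q → f q = h q)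
    (hden : ∀ p ∈ O, ∀ r > 0, ∃ q, ‖q - p‖ < r ∧ D q) :
    ∃ F : M → M [⋀^Fin k]→L[ℝ] ℝ, ContDiffOn ℝ ∞ F O ∧ (∀ p ∈ O, extDeriv F p = 0) ∧
      ∀ p ∈ O, D p → F p = f p := by
  obtain ⟨F, hF, hFf⟩ := exists_ext (M := M) (N := PUnit.{1}) (V := M [⋀^Fin k]→L[ℝ] ℝ)
    (Sh := fun _ _ => True) (D := fun q _ => D q) (Ok := fun p _ => p ∈ O)
    (P := fun h q => extDeriv h q = 0) (f := fun q _ => f q)
    (fun p v hp => by
      obtain ⟨W, h, hW, hpW, hs, hc, hf⟩ := hloc p hp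
      exact ⟨W, h, 1, hW, hpW, one_pos, hs, hc, fun q hq v' _ _ hD => hf q hq hD⟩)
    (fun p v hp r hr => by
      obtain ⟨q, hq, hD⟩ := hden p hp r hr
      exact ⟨q, v, hq, by simpa using hr, trivial, hD⟩)
    (fun p v hp => by
      obtain ⟨t, ht, htO⟩ := Metric.isOpen_iff.1 hO p hp
      exact ⟨t, ht, fun q v' hq _ _ => htO (mem_ball_iff_norm.2 hq)⟩)
  have key : ∀ p ∈ O, ∃ (W : Set M) (h : M → M [⋀^Fin k]→L[ℝ] ℝ), IsOpen W ∧ p ∈ W ∧
      ContDiffOn ℝ ∞ h W ∧ extDeriv h p = 0 ∧ ∀ q ∈ W, F q PUnit.unit = h q := by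
    intro p hp
    obtain ⟨W, h, r, hW, hpW, hr, hs, hc, hf⟩ := hF p PUnit.unit hp
    exact ⟨W, h, hW, hpW, hs, hc p hpW, fun q hq => hf q hq _ trivial (by simpa using hr)⟩
  refine ⟨fun q => F q PUnit.unit, fun p hp => ?_, fun p hp => ?_, fun p hp hD =>
    hFf p PUnit.unit hp trivial hD⟩
  · obtain ⟨W, h, hW, hpW, hs, -, hf⟩ := key p hp
    have h1 : ContDiffAt ℝ ∞ h p := hs.contDiffAt (hW.mem_nhds hpW)
    exact (h1.congr_of_eventuallyEq
      (Filter.eventuallyEq_of_mem (hW.mem_nhds hpW) hf)).contDiffWithinAt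
  · obtain ⟨W, h, hW, hpW, -, hc, hf⟩ := key p hp
    rw [← hc]
    exact Filter.EventuallyEq.extDeriv_eq (Filter.eventuallyEq_of_mem (hW.mem_nhds hpW) hf)

end Vale.Agent.P273.H95

end
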