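import Vale.Agent.P273.H95.Wall
import Vale.Agent.P273.H95.SheetExt
import Vale.Agent.P273.H591.Dense

/-!
P273, the one-node regions of the wall: continuity of the sheets, openness of `ok`, density of the
generic points.
-/

noncomputable section

namespace Vale.Agent.P273.H95

open Set Filter H681
open scoped Topology ContDiff

theorem csq_sq' (z : ℂ) : csq z ^ 2 = z := by
  have h := Complex.cpow_nat_inv_pow z (two_ne_zero)
  rw [csq, one_div]
  exact_mod_cast h

theorem csq_ne' {z : ℂ} (h : z ≠ 0) : csq z ≠ 0 := by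
  intro h1
  apply h
  rw [← csq_sq' z, h1]
  norm_num

theorem near_root' (y w : ℂ) : ∃ z : ℂ, z ^ 2 = w ∧ ‖z - y‖ ^ 2 ≤ ‖w - y ^ 2‖ := by
  obtain ⟨z, hz⟩ := IsAlgClosed.exists_pow_nat_eq w (n := 2) (by norm_num)
  have e : ‖z - y‖ * ‖z + y‖ = ‖w - y ^ 2‖ := by
    rw [← norm_mul, ← hz]; congr 1; ring
  rcases le_total ‖z - y‖ ‖z + y‖ with h | h
  · refine ⟨z, hz, ?_⟩
    rw [← e, sq]
    exact mul_le_mul_of_nonneg_left h (norm_nonneg _)
  · refine ⟨-z, by rw [neg_sq, hz], ?_⟩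
    rw [← e, show -z - y = -(z + y) by ring, norm_neg, sq]
    exact mul_le_mul_of_nonneg_right h (norm_nonneg _)

namespace Region1

variable (R : Region1)

/-- Sheets of the core marks, extended by zero. -/
def exw (w : R.Cm → ℂ) : L → ℂ := fun j => if h : R.nk j = false then w ⟨j, h⟩ else 0
def rs (v : L → ℂ) : R.Cm → ℂ := fun j => v j

theorem exw_core (w : R.Cm → ℂ) {j : L} (h : R.nk j = false) : R.exw w j = w ⟨j, h⟩ := by
  simp [exw, h]

theorem exw_rs (v : L → ℂ) {j : L} (h : R.nk j = false) : R.exw (R.rs v) j = v j := by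
  simp [exw, rs, h]

theorem sht_congr {v v' : L → ℂ} (h : ∀ j, R.nk j = false → v j = v' j) (p : R.Sp) (g : ℂ) :
    R.sht p g v = R.sht p g v' := by
  funext j
  unfold sht
  by_cases hj : R.nk j = true
  · simp [hj]
  · simp only [hj, Bool.false_eq_true, if_false]
    exact h j (by simpa using hj)

theorem isSheet_congr {v v' : L → ℂ} (h : ∀ j, R.nk j = false → v j = v' j) (S : L → Bool)
    (p : R.Sp) (g : ℂ) : R.isSheet S p g v ↔ R.isSheet S p g v' := by
  unfold isSheet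
  refine and_congr_right fun _ => forall_congr' fun j => imp_congr_right fun hj => ?_
  rw [h j hj]

theorem ok_congr {v v' : L → ℂ} (h : ∀ j, R.nk j = false → v j = v' j) (S : L → Bool)
    (p : R.Sp) (g : ℂ) : R.ok S p g v ↔ R.ok S p g v' := by
  unfold ok
  rw [R.isSheet_congr h S p g, R.sht_congr h p g]
  refine and_congr_right fun _ => and_congr_right fun _ => and_congr_right fun _ =>
    and_congr_left fun _ => forall_congr' fun j => imp_congr_right fun hj => ?_
  rw [h j hj]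

theorem isStd_congr {v v' : L → ℂ} (h : ∀ j, R.nk j = false → v j = v' j)
    (p : R.Sp) (g : ℂ) : R.isStd p g v ↔ R.isStd p g v' := by
  unfold isStd
  rw [R.sht_congr h p g]

/-- All fourteen points distinct. -/
def Dst (S : L → Bool) (p : R.Sp) (g : ℂ) (v : L → ℂ) : Prop :=
  ∀ i j : L, i ≠ j → ¬ Same (S i) (R.pos p i) (R.sht p g v i) (S j) (R.pos p j) (R.sht p g v j)

/-! ### Continuity -/

theorem an_gap (g : Fin (R.n + 1)) (p : R.Sp) : AnalyticAt ℂ (fun p : R.Sp => p.1 g) p :=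
  ((ContinuousLinearMap.proj g : (Fin (R.n + 1) → ℂ) →L[ℂ] ℂ).analyticAt _).comp analyticAt_fst

theorem an_cb (c : R.Cm ⊕ Fin 5) (p : R.Sp) : AnalyticAt ℂ (fun p : R.Sp => p.2 c) p :=
  ((ContinuousLinearMap.proj c : (R.Cm ⊕ Fin 5 → ℂ) →L[ℂ] ℂ).analyticAt _).comp analyticAt_snd

theorem an_ctr (p : R.Sp) : AnalyticAt ℂ R.ctr p := R.an_cb _ p
theorem an_oth (l : Fin 4) (p : R.Sp) : AnalyticAt ℂ (fun p => R.oth p l) p := R.an_cb _ p

theorem an_eps (p : R.Sp) : AnalyticAt ℂ R.eps p :=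
  Finset.analyticAt_fun_prod _ fun g _ => R.an_gap g p

theorem an_XX (i : ℕ) (p : R.Sp) : AnalyticAt ℂ (fun p : R.Sp => R.XX p i) p := by
  unfold XX
  refine Finset.analyticAt_fun_prod _ fun g _ => ?_
  split_ifs
  · exact R.an_gap _ p
  · exact analyticAt_const

theorem an_YY (i : ℕ) (p : R.Sp) : AnalyticAt ℂ (fun p : R.Sp => R.YY p i) p := by
  unfold YY
  refine Finset.analyticAt_fun_prod _ fun g _ => ?_
  split_ifs
  · exact R.an_gap _ p
  · exact analyticAt_const

theorem an_rat (i j : ℕ) (p : R.Sp) : AnalyticAt ℂ (fun p : R.Sp => ∏ g : Fin (R.n + 1),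
    (if i < (g : ℕ) ∧ (g : ℕ) ≤ j then p.1 g else 1)) p := by
  refine Finset.analyticAt_fun_prod _ fun g _ => ?_
  split_ifs
  · exact R.an_gap _ p
  · exact analyticAt_const

theorem pos_core {j : L} (h : R.nk j = false) (p : R.Sp) : R.pos p j = p.2 (Sum.inl ⟨j, h⟩) := by
  simp [pos, h]

theorem pos_neck {j : L} (h : R.nk j = true) (p : R.Sp) :
    R.pos p j = R.ctr p + (R.XX p (R.rk j) + R.YY p (R.rk j)) / 2 := by
  simp [pos, h]

theorem an_pos (j : L) (p : R.Sp) : AnalyticAt ℂ (fun p : R.Sp => R.pos p j) p := by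
  by_cases h : R.nk j = false
  · rw [show (fun p : R.Sp => R.pos p j) = fun p => p.2 (Sum.inl ⟨j, h⟩) from
      funext fun p => R.pos_core h p]
    exact R.an_cb _ p
  · rw [show (fun p : R.Sp => R.pos p j) = fun p => R.ctr p +
      (R.XX p (R.rk j) + R.YY p (R.rk j)) / 2 from
        funext fun p => R.pos_neck (by simpa using h) p]
    exact (R.an_ctr p).add (((R.an_XX _ p).add (R.an_YY _ p)).div analyticAt_const two_ne_zero)

theorem sht_neck {j : L} (h : R.nk j = true) (p : R.Sp) (g : ℂ) (v : L → ℂ) : R.sht p g v j =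
    g * (∏ l : Fin 4, csq ((R.pos p j - R.oth p l) / (R.ctr p - R.oth p l))) *
    (R.XX p (R.rk j) - R.YY p (R.rk j)) / 2 := by
  simp [sht, h]

theorem sht_core {j : L} (h : R.nk j = false) (p : R.Sp) (g : ℂ) (v : L → ℂ) :
    R.sht p g v j = v j := by
  simp [sht, h]

theorem ratio_near {S : L → Bool} {p : R.Sp} {g : ℂ} {v : L → ℂ} (ho : R.ok S p g v) {j : L}
    (h : R.nk j = true) (l : Fin 4) :
    ‖(R.pos p j - R.oth p l) / (R.ctr p - R.oth p l) - 1‖ ≤ 1 / 8 := by
  have h0 : R.ctr p - R.oth p l ≠ 0 := sub_ne_zero.2 (ho.1 l).1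
  obtain ⟨h1, h2⟩ := ho.2.2.2.2.1 j h l
  have h3 : (R.pos p j - R.oth p l) / (R.ctr p - R.oth p l) - 1 =
      (R.XX p (R.rk j) + R.YY p (R.rk j)) / 2 / (R.ctr p - R.oth p l) := by
    rw [R.pos_neck h]
    field_simp
    ring
  rw [h3, norm_div, norm_div, Complex.norm_two, div_le_iff₀ (norm_pos_iff.2 h0)]
  have h4 := norm_add_le (R.XX p (R.rk j)) (R.YY p (R.rk j))
  linarith

theorem ratio_slit {S : L → Bool} {p : R.Sp} {g : ℂ} {v : L → ℂ} (ho : R.ok S p g v) {j : L}
    (h : R.nk j = true) (l : Fin 4) :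
    (R.pos p j - R.oth p l) / (R.ctr p - R.oth p l) ∈ Complex.slitPlane := by
  left
  have h1 := R.ratio_near ho h l
  set z := (R.pos p j - R.oth p l) / (R.ctr p - R.oth p l) with hz
  have h2 := Complex.abs_re_le_norm (z - 1)
  have h3 := (abs_le.1 (h2.trans h1)).1
  simp only [Complex.sub_re, Complex.one_re] at h3
  linarith

/-- Sheet parameters. -/
abbrev Nd := ℂ × (R.Cm → ℂ)

/-- **The sheets are continuous.** -/
theorem cont_sht {S : L → Bool} {p : R.Sp} {g : ℂ} {w : R.Cm → ℂ} (ho : R.ok S p g (R.exw w))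
    (j : L) : ContinuousAt (fun x : R.Sp × R.Nd => R.sht x.1 x.2.1 (R.exw x.2.2) j)
      (p, (g, w)) := by
  by_cases h : R.nk j = false
  · rw [show (fun x : R.Sp × R.Nd => R.sht x.1 x.2.1 (R.exw x.2.2) j) =
      fun x => x.2.2 ⟨j, h⟩ from funext fun x => by rw [R.sht_core h, R.exw_core _ h]]
    fun_prop
  · have h' : R.nk j = true := by simpa using h
    rw [show (fun x : R.Sp × R.Nd => R.sht x.1 x.2.1 (R.exw x.2.2) j) = fun x =>
      x.2.1 * (∏ l : Fin 4, csq ((R.pos x.1 j - R.oth x.1 l) / (R.ctr x.1 - R.oth x.1 l))) *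
        (R.XX x.1 (R.rk j) - R.YY x.1 (R.rk j)) / 2 from funext fun x => R.sht_neck h' _ _ _]
    have hf : ContinuousAt (Prod.fst : R.Sp × R.Nd → R.Sp) (p, (g, w)) := continuousAt_fst
    have c1 : ∀ l, ContinuousAt (fun x : R.Sp × R.Nd =>
        csq ((R.pos x.1 j - R.oth x.1 l) / (R.ctr x.1 - R.oth x.1 l))) (p, (g, w)) := by
      intro l
      have c2 : ContinuousAt csq ((R.pos p j - R.oth p l) / (R.ctr p - R.oth p l)) :=
        (analyticAt_id.cpow analyticAt_const (R.ratio_slit ho h' l)).continuousAt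
      have c3 : ContinuousAt (fun p : R.Sp =>
          (R.pos p j - R.oth p l) / (R.ctr p - R.oth p l)) p :=
        ((R.an_pos j p).sub (R.an_oth l p)).continuousAt.div
          ((R.an_ctr p).sub (R.an_oth l p)).continuousAt (sub_ne_zero.2 (ho.1 l).1)
      exact ContinuousAt.comp' (f := Prod.fst) (x := ((p, (g, w)) : R.Sp × R.Nd))
        (c2.comp (f := fun p : R.Sp =>
          (R.pos p j - R.oth p l) / (R.ctr p - R.oth p l)) c3) hf
    have c4 : ContinuousAt (fun x : R.Sp × R.Nd => R.XX x.1 (R.rk j) - R.YY x.1 (R.rk j))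
        (p, (g, w)) :=
      ContinuousAt.comp' (f := Prod.fst) (x := ((p, (g, w)) : R.Sp × R.Nd))
        (g := fun p : R.Sp => R.XX p (R.rk j) - R.YY p (R.rk j))
        ((R.an_XX _ p).sub (R.an_YY _ p)).continuousAt hf
    have c5 : ContinuousAt (fun x : R.Sp × R.Nd => ∏ l : Fin 4,
        csq ((R.pos x.1 j - R.oth x.1 l) / (R.ctr x.1 - R.oth x.1 l))) (p, (g, w)) :=
      tendsto_finsetProd _ fun l _ => c1 l
    exact (((continuousAt_fst.comp continuousAt_snd).mul c5).mul c4).div_const 2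

/-- Distinctness is open. -/
theorem ev_notSame {X : Type*} [TopologicalSpace X] {x₀ : X} {s s' : Bool} {z v z' v' : X → ℂ}
    (hz : ContinuousAt z x₀) (hv : ContinuousAt v x₀) (hz' : ContinuousAt z' x₀)
    (hv' : ContinuousAt v' x₀) (h : ¬ Same s (z x₀) (v x₀) s' (z' x₀) (v' x₀)) :
    ∀ᶠ x in 𝓝 x₀, ¬ Same s (z x) (v x) s' (z' x) (v' x) := by
  unfold Same at *
  by_cases hs : s = s'
  · rw [if_pos hs] at h
    simp only [if_pos hs]
    rcases not_and_or.1 h with h | h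
    · filter_upwards [(hz.sub hz').eventually_ne (sub_ne_zero.2 h)] with x hx e
      exact hx (sub_eq_zero.2 e.1)
    · filter_upwards [(hv.sub hv').eventually_ne (sub_ne_zero.2 h)] with x hx e
      exact hx (sub_eq_zero.2 e.2)
  · rw [if_neg hs] at h
    simp only [if_neg hs]
    rcases not_and_or.1 h with h | h
    · filter_upwards [(hz.mul hz').eventually_ne h] with x hx e
      exact hx e.1
    · filter_upwards [(hv'.sub (hv.mul (hz'.pow 3))).eventually_ne (sub_ne_zero.2 h)] with x hx e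
      exact hx (sub_eq_zero.2 e.2)

theorem cfst {p : R.Sp} {n : R.Nd} {f : R.Sp → ℂ} (h : ContinuousAt f p) :
    ContinuousAt (fun x : R.Sp × R.Nd => f x.1) (p, n) :=
  ContinuousAt.comp' (f := Prod.fst) (x := ((p, n) : R.Sp × R.Nd)) (g := f) h continuousAt_fst

/-- **Near an admissible point all sheets are admissible.** -/
theorem ok_open {S : L → Bool} {p : R.Sp} {n : R.Nd} (ho : R.ok S p n.1 (R.exw n.2)) :
    ∀ᶠ x in 𝓝 ((p, n) : R.Sp × R.Nd), R.isSheet S x.1 x.2.1 (R.exw x.2.2) →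
      R.ok S x.1 x.2.1 (R.exw x.2.2) := by
  have hsc := fun j => R.cont_sht (g := n.1) (w := n.2) ho j
  have ceps : ContinuousAt (fun x : R.Sp × R.Nd => R.eps x.1) (p, n) :=
    R.cfst (R.an_eps p).continuousAt
  have cctr : ContinuousAt (fun x : R.Sp × R.Nd => R.ctr x.1) (p, n) :=
    R.cfst (R.an_ctr p).continuousAt
  have coth : ∀ l, ContinuousAt (fun x : R.Sp × R.Nd => R.oth x.1 l) (p, n) := fun l =>
    R.cfst (R.an_oth l p).continuousAt
  have cpos : ∀ j, ContinuousAt (fun x : R.Sp × R.Nd => R.pos x.1 j) (p, n) := fun j =>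
    R.cfst (R.an_pos j p).continuousAt
  obtain ⟨h1, h2, -, h4, h5, h6, h7⟩ := ho
  have e1 : ∀ᶠ x in 𝓝 ((p, n) : R.Sp × R.Nd), ∀ l, R.ctr x.1 ≠ R.oth x.1 l ∧
      ‖R.eps x.1‖ < ‖R.ctr x.1 - R.oth x.1 l‖ ^ 2 / 4096 := by
    refine eventually_all.2 fun l => ?_
    have a := (cctr.sub (coth l)).eventually_ne (sub_ne_zero.2 (h1 l).1)
    have b := ceps.norm.eventually_lt (((cctr.sub (coth l)).norm.pow 2).div_const 4096) (h1 l).2
    filter_upwards [a, b] with x ha hb
    exact ⟨fun e => ha (sub_eq_zero.2 e), hb⟩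
  have e2 : ∀ᶠ x in 𝓝 ((p, n) : R.Sp × R.Nd), ∀ l l', R.oth x.1 l = R.oth x.1 l' → l = l' := by
    refine eventually_all.2 fun l => eventually_all.2 fun l' => ?_
    by_cases hl : l = l'
    · exact Eventually.of_forall fun x _ => hl
    · have a := ((coth l).sub (coth l')).eventually_ne
        (sub_ne_zero.2 fun e => hl (h2 l l' e))
      filter_upwards [a] with x ha e
      exact absurd (sub_eq_zero.2 e) ha
  have e4 : ∀ᶠ x in 𝓝 ((p, n) : R.Sp × R.Nd), ∀ j, R.nk j = false → R.exw x.2.2 j ≠ 0 ∧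
      if S j then ‖R.eps x.1 * R.pos x.1 j ^ 2‖ < ‖1 - R.ctr x.1 * R.pos x.1 j‖ ^ 2 / 4
      else ‖R.eps x.1‖ < ‖R.pos x.1 j - R.ctr x.1‖ ^ 2 / 4 := by
    refine eventually_all.2 fun j => ?_
    by_cases hj : R.nk j = false
    · obtain ⟨a1, a2⟩ := h4 j hj
      have c : ContinuousAt (fun x : R.Sp × R.Nd => R.exw x.2.2 j) (p, n) := by
        have := hsc j
        simp only [R.sht_core hj] at this
        exact this
      have a := c.eventually_ne a1
      by_cases hS : S j = true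
      · rw [if_pos hS] at a2
        have b := (ceps.mul ((cpos j).pow 2)).norm.eventually_lt
          (((continuousAt_const.sub (cctr.mul (cpos j))).norm.pow 2).div_const 4) a2
        filter_upwards [a, b] with x ha hb _
        exact ⟨ha, by rw [if_pos hS]; exact hb⟩
      · rw [if_neg hS] at a2
        have b := ceps.norm.eventually_lt ((((cpos j).sub cctr).norm.pow 2).div_const 4) a2
        filter_upwards [a, b] with x ha hb _
        exact ⟨ha, by rw [if_neg hS]; exact hb⟩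
    · exact Eventually.of_forall fun x h => absurd h hj
  have e5 : ∀ᶠ x in 𝓝 ((p, n) : R.Sp × R.Nd), ∀ j, R.nk j = true → ∀ l,
      ‖R.XX x.1 (R.rk j)‖ < ‖R.ctr x.1 - R.oth x.1 l‖ / 8 ∧
      ‖R.YY x.1 (R.rk j)‖ < ‖R.ctr x.1 - R.oth x.1 l‖ / 8 := by
    refine eventually_all.2 fun j => ?_
    by_cases hj : R.nk j = true
    · have : ∀ᶠ x in 𝓝 ((p, n) : R.Sp × R.Nd), ∀ l,
          ‖R.XX x.1 (R.rk j)‖ < ‖R.ctr x.1 - R.oth x.1 l‖ / 8 ∧
          ‖R.YY x.1 (R.rk j)‖ < ‖R.ctr x.1 - R.oth x.1 l‖ / 8 := by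
        refine eventually_all.2 fun l => ?_
        have a := (R.cfst (n := n) (R.an_XX (R.rk j) p).continuousAt).norm.eventually_lt
          ((cctr.sub (coth l)).norm.div_const 8) (h5 j hj l).1
        have b := (R.cfst (n := n) (R.an_YY (R.rk j) p).continuousAt).norm.eventually_lt
          ((cctr.sub (coth l)).norm.div_const 8) (h5 j hj l).2
        exact a.and b
      filter_upwards [this] with x hx _ using hx
    · exact Eventually.of_forall fun x h => absurd h hj
  have e6 : ∀ᶠ x in 𝓝 ((p, n) : R.Sp × R.Nd), ∀ i j : L, i ≠ j → i.2 = j.2 →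
      ¬ (R.nk i = true ∧ R.nk j = true) →
      ¬ Same (S i) (R.pos x.1 i) (R.sht x.1 x.2.1 (R.exw x.2.2) i) (S j) (R.pos x.1 j)
        (R.sht x.1 x.2.1 (R.exw x.2.2) j) := by
    refine eventually_all.2 fun i => eventually_all.2 fun j => ?_
    by_cases hc : i ≠ j ∧ i.2 = j.2 ∧ ¬ (R.nk i = true ∧ R.nk j = true)
    · have := ev_notSame (cpos i) (hsc i) (cpos j) (hsc j) (h6 i j hc.1 hc.2.1 hc.2.2)
      filter_upwards [this] with x hx _ _ _ using hx
    · exact Eventually.of_forall fun x a b c => absurd ⟨a, b, c⟩ hc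
  have e7 : ∀ᶠ x in 𝓝 ((p, n) : R.Sp × R.Nd), ∀ i j : L, R.nk i = true → R.nk j = true →
      i.2 = j.2 → R.rk i < R.rk j →
      ∏ g : Fin (R.n + 1), (if R.rk i < (g : ℕ) ∧ (g : ℕ) ≤ R.rk j then x.1.1 g else 1) ≠ 1 := by
    refine eventually_all.2 fun i => eventually_all.2 fun j => ?_
    by_cases hc : R.nk i = true ∧ R.nk j = true ∧ i.2 = j.2 ∧ R.rk i < R.rk j
    · have := (R.cfst (n := n) (R.an_rat (R.rk i) (R.rk j) p).continuousAt).eventually_ne
        (h7 i j hc.1 hc.2.1 hc.2.2.1 hc.2.2.2)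
      filter_upwards [this] with x hx _ _ _ _ using hx
    · exact Eventually.of_forall fun x a b c d => absurd ⟨a, b, c, d⟩ hc
  filter_upwards [e1, e2, e4, e5, e6, e7] with x a1 a2 a4 a5 a6 a7 hs
  exact ⟨a1, a2, hs, a4, a5, a6, a7⟩

/-- Eventual statements in radius form. -/
theorem radius {p : R.Sp} {n : R.Nd} {P : R.Sp → R.Nd → Prop}
    (h : ∀ᶠ x in 𝓝 ((p, n) : R.Sp × R.Nd), P x.1 x.2) :
    ∃ r > 0, ∀ q n', ‖q - p‖ < r → ‖n' - n‖ < r → P q n' := by
  obtain ⟨r, hr, hP⟩ := Metric.eventually_nhds_iff.1 h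
  refine ⟨r, hr, fun q n' hq hn => @hP (q, n') ?_⟩
  rw [Prod.dist_eq, max_lt_iff, dist_eq_norm, dist_eq_norm]
  exact ⟨hq, hn⟩

end Region1

end Vale.Agent.P273.H95

end
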