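import Vale.Agent.P273.H95.One

/-!
P273, the one-node regions of the wall: density of the generic points.
-/

noncomputable section

namespace Vale.Agent.P273.H95

open Set Filter H681
open scoped Topology ContDiff

namespace Region1

section Cf
open Polynomial

theorem an_coeff_mul {X : Type*} [NormedAddCommGroup X] [NormedSpace ℂ X] {P Q : X → ℂ[X]} {x : X}
    (hP : ∀ i, AnalyticAt ℂ (fun p => (P p).coeff i) x)
    (hQ : ∀ i, AnalyticAt ℂ (fun p => (Q p).coeff i) x) (i : ℕ) :
    AnalyticAt ℂ (fun p => (P p * Q p).coeff i) x := by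
  simp only [Polynomial.coeff_mul]
  exact Finset.analyticAt_fun_sum _ fun y _ => (hP y.1).mul (hQ y.2)

theorem an_coeff_lin {X : Type*} [NormedAddCommGroup X] [NormedSpace ℂ X] {a : X → ℂ} {x : X}
    (ha : AnalyticAt ℂ a x) (i : ℕ) :
    AnalyticAt ℂ (fun p => ((Polynomial.X : ℂ[X]) - C (a p)).coeff i) x := by
  simp only [coeff_sub, coeff_C]
  refine analyticAt_const.sub ?_
  split_ifs
  · exact ha
  · exact analyticAt_const

theorem an_coeff_prod {X : Type*} [NormedAddCommGroup X] [NormedSpace ℂ X] {ι : Type*}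
    {P : ι → X → ℂ[X]} {x : X} (s : Finset ι)
    (hP : ∀ l ∈ s, ∀ i, AnalyticAt ℂ (fun p => (P l p).coeff i) x) (i : ℕ) :
    AnalyticAt ℂ (fun p => (∏ l ∈ s, P l p).coeff i) x := by
  classical
  induction s using Finset.induction_on generalizing i with
  | empty =>
    simp only [Finset.prod_empty]
    exact analyticAt_const
  | insert a s ha ih =>
    simp only [Finset.prod_insert ha]
    exact an_coeff_mul (hP a (Finset.mem_insert_self _ _))
      (fun i => ih (fun l hl => hP l (Finset.mem_insert_of_mem hl)) i) i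

end Cf

variable (R : Region1)

theorem an_cf (p : R.Sp) : AnalyticAt ℂ R.cf p := by
  have h : ∀ i : Fin 6, AnalyticAt ℂ (fun p => R.cf p i) p := by
    intro i
    unfold cf
    refine an_coeff_mul (fun i => ?_) (fun i => ?_) _
    · simp only [Polynomial.coeff_sub]
      refine AnalyticAt.sub ?_ ?_
      · simp only [pow_two]
        exact an_coeff_mul (an_coeff_lin (R.an_ctr p)) (an_coeff_lin (R.an_ctr p)) i
      · simp only [Polynomial.coeff_C]
        split_ifs
        · exact R.an_eps p
        · exact analyticAt_const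
    · exact an_coeff_prod _ (fun l _ => an_coeff_lin (R.an_oth l p)) i
  exact AnalyticAt.pi h

/-- The generic conditions. -/
def Cnd (S : L → Bool) : (Fin (R.n + 1) ⊕ L) ⊕ ((L × L) ⊕ (L × L)) → R.Sp → ℂ
  | Sum.inl (Sum.inl g), p => p.1 g
  | Sum.inl (Sum.inr j), p => if R.nk j = true then R.XX p (R.rk j) - R.YY p (R.rk j) else 1
  | Sum.inr (Sum.inl x), p =>
      if R.nk x.1 = true ∧ R.nk x.2 = true ∧ R.rk x.1 < R.rk x.2 then
        R.XX p (R.rk x.1) - R.XX p (R.rk x.2) else 1
  | Sum.inr (Sum.inr x), p =>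
      if x.1 ≠ x.2 ∧ R.nk x.1 = false then
        if S x.1 = S x.2 then R.pos p x.1 - R.pos p x.2 else R.pos p x.1 * R.pos p x.2 - 1
      else 1

theorem an_Cnd (S : L → Bool) (c) (p : R.Sp) : AnalyticAt ℂ (R.Cnd S c) p := by
  rcases c with (g | j) | (x | x)
  · exact R.an_gap g p
  · show AnalyticAt ℂ (fun p : R.Sp =>
      if R.nk j = true then R.XX p (R.rk j) - R.YY p (R.rk j) else 1) p
    split_ifs
    · exact (R.an_XX _ p).sub (R.an_YY _ p)
    · exact analyticAt_const
  · show AnalyticAt ℂ (fun p : R.Sp =>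
      if R.nk x.1 = true ∧ R.nk x.2 = true ∧ R.rk x.1 < R.rk x.2 then
        R.XX p (R.rk x.1) - R.XX p (R.rk x.2) else 1) p
    split_ifs
    · exact (R.an_XX _ p).sub (R.an_XX _ p)
    · exact analyticAt_const
  · show AnalyticAt ℂ (fun p : R.Sp =>
      if x.1 ≠ x.2 ∧ R.nk x.1 = false then
        if S x.1 = S x.2 then R.pos p x.1 - R.pos p x.2 else R.pos p x.1 * R.pos p x.2 - 1
      else 1) p
    split_ifs
    · exact (R.an_pos _ p).sub (R.an_pos _ p)
    · exact ((R.an_pos _ p).mul (R.an_pos _ p)).sub analyticAt_const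
    · exact analyticAt_const

theorem exists_Cnd (S : L → Bool) (c) : ∃ p : R.Sp, R.Cnd S c p ≠ 0 := by
  rcases c with (g | j) | (x | x)
  · exact ⟨(fun _ => 1, 0), by simp [Cnd]⟩
  · by_cases hj : R.nk j = true
    · refine ⟨(fun g => if g = 0 then 2 else 1, 0), ?_⟩
      have h1 : R.XX (fun g => if g = 0 then 2 else 1, 0) (R.rk j) = 2 := by
        unfold XX
        rw [Finset.prod_eq_single (0 : Fin (R.n + 1))]
        · simp
        · intro g _ hg
          simp [hg]
        · simp
      have h2 : R.YY (fun g => if g = 0 then 2 else 1, 0) (R.rk j) = 1 := by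
        unfold YY
        refine Finset.prod_eq_one fun g _ => ?_
        by_cases hg : g = 0
        · subst hg; simp
        · simp [hg]
      simp only [Cnd, hj, if_true, h1, h2]
      norm_num
    · exact ⟨0, by simp [Cnd, hj]⟩
  · by_cases hc : R.nk x.1 = true ∧ R.nk x.2 = true ∧ R.rk x.1 < R.rk x.2
    · refine ⟨(fun g => if (g : ℕ) = R.rk x.2 then 2 else 1, 0), ?_⟩
      have hlt : R.rk x.2 < R.n + 1 := (R.rk_lt x.2 hc.2.1).trans (Nat.lt_succ_self _)
      have h1 : R.XX (fun g => if (g : ℕ) = R.rk x.2 then 2 else 1, 0) (R.rk x.2) = 2 := by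
        unfold XX
        rw [Finset.prod_eq_single (⟨R.rk x.2, hlt⟩ : Fin (R.n + 1))]
        · simp
        · intro g _ hg
          have : (g : ℕ) ≠ R.rk x.2 := fun e => hg (Fin.ext e)
          simp [this]
        · simp
      have h2 : R.XX (fun g => if (g : ℕ) = R.rk x.2 then 2 else 1, 0) (R.rk x.1) = 1 := by
        unfold XX
        refine Finset.prod_eq_one fun g _ => ?_
        by_cases hg : (g : ℕ) = R.rk x.2
        · rw [if_neg (by have := hc.2.2; omega)]
        · simp [hg]
      simp only [Cnd, if_pos hc, h1, h2]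
      norm_num
    · refine ⟨0, ?_⟩
      unfold Cnd
      simp only [if_neg hc]
      exact one_ne_zero
  · by_cases hc : x.1 ≠ x.2 ∧ R.nk x.1 = false
    · refine ⟨((0 : Fin (R.n + 1) → ℂ), Pi.single (Sum.inl ⟨x.1, hc.2⟩) 5), ?_⟩
      set p : R.Sp := ((0 : Fin (R.n + 1) → ℂ), Pi.single (Sum.inl ⟨x.1, hc.2⟩) 5) with hp
      have h1 : R.pos p x.1 = 5 := by
        rw [R.pos_core hc.2, hp]
        simp
      have h2 : R.pos p x.2 = 0 := by
        by_cases h : R.nk x.2 = false
        · rw [R.pos_core h, hp]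
          have : (Sum.inl ⟨x.2, h⟩ : R.Cm ⊕ Fin 5) ≠ Sum.inl ⟨x.1, hc.2⟩ := by
            intro e
            have := Sum.inl.inj e
            exact hc.1 (congrArg Subtype.val this).symm
          simp [Pi.single_eq_of_ne this]
        · have h' : R.nk x.2 = true := by simpa using h
          rw [R.pos_neck h']
          have a1 : R.XX p (R.rk x.2) = 0 := by
            unfold XX
            refine Finset.prod_eq_zero (Finset.mem_univ (0 : Fin (R.n + 1))) ?_
            simp [hp]
          have a2 : R.YY p (R.rk x.2) = 0 := by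
            unfold YY
            refine Finset.prod_eq_zero (Finset.mem_univ (Fin.last R.n)) ?_
            rw [if_pos (show R.rk x.2 < ((Fin.last R.n : Fin (R.n + 1)) : ℕ) from
              R.rk_lt x.2 h')]
            simp [hp]
          have a3 : R.ctr p = 0 := by simp [ctr, hp]
          rw [a1, a2, a3]
          simp
      simp only [Cnd, if_pos hc, h1, h2]
      split_ifs <;> norm_num
    · refine ⟨0, ?_⟩
      unfold Cnd
      simp only [if_neg hc]
      exact one_ne_zero

/-- The generic points of the base. -/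
def Gp (S : L → Bool) : Set R.Sp := ⋂ c, {p | R.Cnd S c p ≠ 0}

theorem dense_Gp (S : L → Bool) : Dense (R.Gp S) := by
  intro p
  refine H591.dense_iInter_of_finite (U := univ) isOpen_univ (fun c => ?_) (fun c => ?_)
    (mem_univ p)
  · have : Continuous (R.Cnd S c) :=
      continuous_iff_continuousAt.2 fun q => (R.an_Cnd S c q).continuousAt
    exact isOpen_ne.preimage this
  · obtain ⟨q, hq⟩ := R.exists_Cnd S c
    exact H591.dense_ne_zero (𝕜 := ℂ) isPreconnected_univ (fun q _ => R.an_Cnd S c q)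
      (mem_univ q) hq

theorem Same_symm {s s' : Bool} {z v z' v' : ℂ} (h : Same s z v s' z' v') :
    (s = s' → z' = z) ∧ (s ≠ s' → z' * z = 1) := by
  unfold Same at h
  refine ⟨fun e => ?_, fun e => ?_⟩
  · rw [if_pos e] at h
    exact h.1.symm
  · rw [if_neg e] at h
    rw [mul_comm]
    exact h.1

/-- At a generic base point all admissible sheets are generic. -/
theorem gen_of_Gp {S : L → Bool} (hS : ∀ j, S j = true → R.nk j = false) {p : R.Sp} {g : ℂ}
    {v : L → ℂ} (hp : p ∈ R.Gp S) (ho : R.ok S p g v) : R.isStd p g v ∧ R.Dst S p g v := by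
  have hp' : ∀ c, R.Cnd S c p ≠ 0 := fun c => mem_iInter.1 hp c
  have hg : g ≠ 0 := by
    intro e
    have h1 := ho.2.2.1.1
    rw [e] at h1
    have h2 : (∏ l : Fin 4, (R.ctr p - R.oth p l)) ≠ 0 :=
      Finset.prod_ne_zero_iff.2 fun l _ => sub_ne_zero.2 (ho.1 l).1
    exact h2 (by rw [← h1]; simp)
  have hP : ∀ j, R.nk j = true →
      (∏ l : Fin 4, csq ((R.pos p j - R.oth p l) / (R.ctr p - R.oth p l))) ≠ 0 := fun j hj =>
    Finset.prod_ne_zero_iff.2 fun l _ => csq_ne' (Complex.slitPlane_ne_zero (R.ratio_slit ho hj l))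
  refine ⟨⟨fun _ g => hp' (Sum.inl (Sum.inl g)), fun j => ?_⟩, fun i j hij hs => ?_⟩
  · by_cases hj : R.nk j = false
    · rw [R.sht_core hj]
      exact (ho.2.2.2.1 j hj).1
    · have hj' : R.nk j = true := by simpa using hj
      rw [R.sht_neck hj']
      have h1 := hp' (Sum.inl (Sum.inr j))
      simp only [Cnd, if_pos hj'] at h1
      exact div_ne_zero (mul_ne_zero (mul_ne_zero hg (hP j hj')) h1) two_ne_zero
  · by_cases hi : R.nk i = false
    · have h1 := hp' (Sum.inr (Sum.inr (i, j)))
      simp only [Cnd, if_pos (show i ≠ j ∧ R.nk i = false from ⟨hij, hi⟩)] at h1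
      by_cases e : S i = S j
      · rw [if_pos e] at h1
        exact h1 (sub_eq_zero.2 ((Same_symm hs).1 e).symm)
      · rw [if_neg e] at h1
        exact h1 (sub_eq_zero.2 (by rw [mul_comm]; exact (Same_symm hs).2 e))
    · by_cases hj : R.nk j = false
      · have h1 := hp' (Sum.inr (Sum.inr (j, i)))
        simp only [Cnd, if_pos (show j ≠ i ∧ R.nk j = false from ⟨hij.symm, hj⟩)] at h1
        by_cases e : S i = S j
        · rw [if_pos e.symm] at h1
          exact h1 (sub_eq_zero.2 ((Same_symm hs).1 e))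
        · rw [if_neg (Ne.symm e)] at h1
          exact h1 (sub_eq_zero.2 ((Same_symm hs).2 e))
      · have hi' : R.nk i = true := by simpa using hi
        have hj' : R.nk j = true := by simpa using hj
        have hSi : S i = false := by
          by_contra h
          exact hi (hS i (by simpa using h))
        have hSj : S j = false := by
          by_contra h
          exact hj (hS j (by simpa using h))
        unfold Same at hs
        rw [if_pos (by rw [hSi, hSj])] at hs
        obtain ⟨e1, e2⟩ := hs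
        rw [R.sht_neck hi', R.sht_neck hj', e1] at e2
        have e3 : R.XX p (R.rk i) - R.YY p (R.rk i) = R.XX p (R.rk j) - R.YY p (R.rk j) := by
          have h3 := mul_ne_zero hg (hP j hj')
          refine mul_left_cancel₀ h3 ?_
          linear_combination 2 * e2
        rw [R.pos_neck hi', R.pos_neck hj'] at e1
        have e4 : R.XX p (R.rk i) = R.XX p (R.rk j) := by linear_combination e1 + e3 / 2
        rcases lt_trichotomy (R.rk i) (R.rk j) with h | h | h
        · have h1 := hp' (Sum.inr (Sum.inl (i, j)))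
          simp only [Cnd, if_pos (show R.nk i = true ∧ R.nk j = true ∧ R.rk i < R.rk j from
            ⟨hi', hj', h⟩)] at h1
          exact h1 (sub_eq_zero.2 e4)
        · exact hij (R.rk_inj i j hi' hj' h)
        · have h1 := hp' (Sum.inr (Sum.inl (j, i)))
          simp only [Cnd, if_pos (show R.nk j = true ∧ R.nk i = true ∧ R.rk j < R.rk i from
            ⟨hj', hi', h⟩)] at h1
          exact h1 (sub_eq_zero.2 e4.symm)

/-- **Generic points with sheets are dense near an admissible point.** -/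
theorem dense_gen {S : L → Bool} (hS : ∀ j, S j = true → R.nk j = false) {p : R.Sp} {n : R.Nd}
    (ho : R.ok S p n.1 (R.exw n.2)) :
    DenseAt (fun q (n : R.Nd) => R.isSheet S q n.1 (R.exw n.2))
      (fun q n => R.isStd q n.1 (R.exw n.2) ∧ R.Dst S q n.1 (R.exw n.2)) p n := by
  intro r hr
  obtain ⟨r0, hr0, hok⟩ := R.radius (P := fun q n => R.isSheet S q n.1 (R.exw n.2) →
    R.ok S q n.1 (R.exw n.2)) (R.ok_open ho)
  set ρ := min r r0 with hρ
  have hρ0 : 0 < ρ := lt_min hr hr0
  have cA : ContinuousAt (fun q : R.Sp => ∏ l : Fin 4, (R.ctr q - R.oth q l)) p :=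
    tendsto_finsetProd _ fun l _ => ((R.an_ctr p).sub (R.an_oth l p)).continuousAt
  have cB : ∀ j, ContinuousAt (fun q : R.Sp => pol (S j) (R.cf q) (R.pos q j)) p := by
    intro j
    have c1 : ∀ i, ContinuousAt (fun q => R.cf q i) p := fun i =>
      (continuous_apply i).continuousAt.comp (R.an_cf p).continuousAt
    have c2 := (R.an_pos j p).continuousAt
    unfold pol
    split_ifs
    · unfold sw
      exact continuousAt_const.add (tendsto_finsetSum _ fun i _ => (c1 i).mul (c2.pow _))
    · unfold sx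
      exact (c2.pow 6).add (tendsto_finsetSum _ fun i _ => (c1 i).mul (c2.pow _))
  have hev : ∀ᶠ q in 𝓝 p, ‖q - p‖ < ρ ∧
      ‖(∏ l : Fin 4, (R.ctr q - R.oth q l)) - n.1 ^ 2‖ < ρ ^ 2 ∧
      ∀ j, R.nk j = false → ‖pol (S j) (R.cf q) (R.pos q j) - R.exw n.2 j ^ 2‖ < ρ ^ 2 := by
    have h1 : ∀ᶠ q in 𝓝 p, ‖q - p‖ < ρ := by
      filter_upwards [Metric.ball_mem_nhds p hρ0] with q hq using mem_ball_iff_norm.1 hq
    have h2 : ∀ᶠ q in 𝓝 p, ‖(∏ l : Fin 4, (R.ctr q - R.oth q l)) - n.1 ^ 2‖ < ρ ^ 2 := by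
      have := (cA.sub (continuousAt_const (y := n.1 ^ 2))).norm
      refine this.eventually_lt continuousAt_const ?_
      simp only [Pi.sub_apply]
      rw [← ho.2.2.1.1, sub_self, norm_zero]
      positivity
    have h3 : ∀ᶠ q in 𝓝 p, ∀ j, R.nk j = false →
        ‖pol (S j) (R.cf q) (R.pos q j) - R.exw n.2 j ^ 2‖ < ρ ^ 2 := by
      refine eventually_all.2 fun j => ?_
      by_cases hj : R.nk j = false
      · have := ((cB j).sub (continuousAt_const (y := R.exw n.2 j ^ 2))).norm
        have h4 := this.eventually_lt (continuousAt_const (y := ρ ^ 2)) (by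
          simp only [Pi.sub_apply]
          rw [← ho.2.2.1.2 j hj, sub_self, norm_zero]
          positivity)
        filter_upwards [h4] with q hq _ using hq
      · exact Eventually.of_forall fun q h => absurd h hj
    exact h1.and (h2.and h3)
  obtain ⟨q, hq, hqG⟩ : ∃ q, (‖q - p‖ < ρ ∧
      ‖(∏ l : Fin 4, (R.ctr q - R.oth q l)) - n.1 ^ 2‖ < ρ ^ 2 ∧
      ∀ j, R.nk j = false → ‖pol (S j) (R.cf q) (R.pos q j) - R.exw n.2 j ^ 2‖ < ρ ^ 2) ∧
      q ∈ R.Gp S := by
    have := mem_closure_iff_frequently.1 (R.dense_Gp S p)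
    obtain ⟨q, h1, h2⟩ := (this.and_eventually hev).exists
    exact ⟨q, h2, h1⟩
  obtain ⟨g', hg', hgn⟩ := near_root' n.1 (∏ l : Fin 4, (R.ctr q - R.oth q l))
  have hw : ∀ c : R.Cm, ∃ z : ℂ, z ^ 2 = pol (S c) (R.cf q) (R.pos q c) ∧ ‖z - n.2 c‖ < ρ := by
    intro c
    obtain ⟨z, hz, hzn⟩ := near_root' (n.2 c) (pol (S c) (R.cf q) (R.pos q c))
    have h1 := hq.2.2 c c.2
    rw [R.exw_core _ c.2] at h1
    exact ⟨z, hz, lt_of_pow_lt_pow_left₀ 2 hρ0.le (hzn.trans_lt h1)⟩
  choose w' hw' hwn using hw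
  have hn : ‖((g', w') : R.Nd) - n‖ < ρ := by
    rw [Prod.norm_def, max_lt_iff]
    exact ⟨lt_of_pow_lt_pow_left₀ 2 hρ0.le (hgn.trans_lt hq.2.1),
      (pi_norm_lt_iff hρ0).2 fun c => hwn c⟩
  have hs : R.isSheet S q g' (R.exw w') := ⟨hg', fun j hj => by
    rw [R.exw_core _ hj]
    exact hw' ⟨j, hj⟩⟩
  have hoq : R.ok S q g' (R.exw w') := hok q (g', w') (hq.1.trans_le (min_le_right _ _))
    (hn.trans_le (min_le_right _ _)) hs
  exact ⟨q, (g', w'), hq.1.trans_le (min_le_left _ _), hn.trans_le (min_le_left _ _), hs,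
    R.gen_of_Gp hS hqG hoq⟩

end Region1

end Vale.Agent.P273.H95

end
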